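import Mathlib.MeasureTheory.Integral.Bochner.Basic
import Mathlib.Analysis.SpecialFunctions.Log.Basic
import Mathlib.Analysis.Complex.ExponentialBounds
import Mathlib.Tactic

/-!
# N249X: choice of sample points by an exponential potential
-/

open MeasureTheory
open scoped BigOperators

namespace Vale.Agent.N249X

variable {Ω : Type*} [MeasurableSpace Ω] {μ : Measure Ω} {I : Type*} [Fintype I]

theorem exists_point (f : I → Ω → ℝ) (F : Ω → ℝ) (Q : Ω → Prop) (hQ : ∀ᵐ ω ∂μ, Q ω)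
    (hf : ∀ i, Integrable (f i) μ) (hF : Integrable F μ) (h0 : ∀ i ω, 0 ≤ f i ω)
    (h1 : ∀ i ω, f i ω ≤ F ω) (hF0 : ∀ ω, 0 ≤ F ω) (hi : ∀ i, ∫ ω, f i ω ∂μ = 1) {M : ℝ}
    (hM : ∫ ω, F ω ∂μ = M) (hM0 : 0 < M) (b : I → ℝ) :
    ∃ ω, Q ω ∧ 0 < F ω ∧ ∑ i, b i * (M * f i ω / F ω) ≤ ∑ i, b i := by
  by_contra hc
  push Not at hc
  set H : Ω → ℝ := fun ω => ∑ i, b i * M * f i ω - (∑ i, b i) * F ω with hH
  have a1 : Integrable (fun ω => ∑ i, b i * M * f i ω) μ :=
    integrable_finsetSum _ fun i _ => (hf i).const_mul _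
  have a2 : Integrable H μ := a1.sub (hF.const_mul _)
  have a3 : ∫ ω, H ω ∂μ = 0 := by
    simp only [hH]
    rw [integral_sub a1 (hF.const_mul _), integral_finsetSum _ fun i _ => (hf i).const_mul _]
    simp only [integral_const_mul, hi, hM, mul_one]
    rw [Finset.sum_mul, sub_self]
  have a4 : ∀ ω, Q ω → 0 < F ω → 0 < H ω := by
    intro ω h2 h3
    have h4 := mul_lt_mul_of_pos_right (hc ω h2 h3) h3
    rw [Finset.sum_mul Finset.univ fun i => b i * (M * f i ω / F ω)] at h4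
    have h5 : ∀ i, b i * (M * f i ω / F ω) * F ω = b i * M * f i ω := fun i => by field_simp
    simp only [h5] at h4
    exact sub_pos.2 h4
  have a5 : 0 ≤ᵐ[μ] H := by
    filter_upwards [hQ] with ω h2
    rcases (hF0 ω).eq_or_lt with h3 | h3
    · have : ∀ i, f i ω = 0 := fun i => le_antisymm ((h1 i ω).trans h3.ge) (h0 i ω)
      simp [hH, this, ← h3]
    · exact (a4 ω h2 h3).le
  have a6 := (integral_eq_zero_iff_of_nonneg_ae a5 a2).1 a3
  have a7 : F =ᵐ[μ] fun _ => 0 := by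
    filter_upwards [hQ, a6] with ω h2 h3
    by_contra h4
    exact (a4 ω h2 (lt_of_le_of_ne (hF0 ω) (Ne.symm h4))).ne' h3
  rw [integral_congr_ae a7, integral_zero] at hM
  exact hM0.ne hM

theorem exp_step {s l M Z : ℝ} (hs : |s| ≤ 1) (hl : 0 ≤ l) (hlM : l * M ≤ 1) (hZ : 0 ≤ Z)
    (hZM : Z ≤ M) : Real.exp (s * l * Z) ≤ 1 + (s * l + l ^ 2 * M) * Z := by
  have h1 : |s * l * Z| ≤ l * Z := by
    rw [mul_assoc, abs_mul, abs_of_nonneg (mul_nonneg hl hZ)]
    exact mul_le_of_le_one_left (mul_nonneg hl hZ) hs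
  have h2 : l * Z ≤ l * M := mul_le_mul_of_nonneg_left hZM hl
  have h3 := (abs_le.1 (Real.abs_exp_sub_one_sub_id_le (h1.trans (h2.trans hlM)))).2
  have h4 : (s * l * Z) ^ 2 ≤ (l * Z) * (l * M) := by
    rw [← sq_abs, sq]
    exact mul_le_mul h1 (h1.trans h2) (abs_nonneg _) (mul_nonneg hl hZ)
  nlinarith

theorem exists_sample (f : I → Ω → ℝ) (F : Ω → ℝ) (Q : Ω → Prop) (hQ : ∀ᵐ ω ∂μ, Q ω)
    (hf : ∀ i, Integrable (f i) μ) (hF : Integrable F μ) (h0 : ∀ i ω, 0 ≤ f i ω)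
    (h1 : ∀ i ω, f i ω ≤ F ω) (hF0 : ∀ ω, 0 ≤ F ω) (hi : ∀ i, ∫ ω, f i ω ∂μ = 1) {M : ℝ}
    (hM : ∫ ω, F ω ∂μ = M) (hM0 : 0 < M) (s : I → ℝ) (hs : ∀ i, |s i| ≤ 1) {l : ℝ} (hl : 0 ≤ l)
    (hlM : l * M ≤ 1) (N : ℕ) : ∃ w : Fin N → Ω, (∀ j, Q (w j) ∧ 0 < F (w j)) ∧
      ∑ i, Real.exp (s i * l * (∑ j, M * f i (w j) / F (w j) - N)) ≤
        Fintype.card I * Real.exp (N * (l ^ 2 * M)) := by
  induction N with
  | zero => exact ⟨Fin.elim0, fun j => j.elim0, by simp⟩
  | succ N ih =>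
    obtain ⟨w, hw, H⟩ := ih
    set α : I → ℝ := fun i => Real.exp (s i * l * (∑ j, M * f i (w j) / F (w j) - N)) with hα
    obtain ⟨ω, h2, h3, h4⟩ := exists_point f F Q hQ hf hF h0 h1 hF0 hi hM hM0
      fun i => α i * Real.exp (-(s i * l)) * (s i * l + l ^ 2 * M)
    refine ⟨Fin.cons ω w, fun j => Fin.cases ⟨h2, h3⟩ (fun j => hw j) j, ?_⟩
    have a1 : ∀ i, Real.exp (s i * l * (∑ j : Fin (N + 1), M * f i (Fin.cons (α := fun _ => Ω) ω w j) /
        F (Fin.cons (α := fun _ => Ω) ω w j) - (N + 1 : ℕ))) ≤ α i * Real.exp (-(s i * l)) +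
          α i * Real.exp (-(s i * l)) * (s i * l + l ^ 2 * M) * (M * f i ω / F ω) := by
      intro i
      have b1 : 0 ≤ M * f i ω / F ω := div_nonneg (mul_nonneg hM0.le (h0 i ω)) h3.le
      have b2 : M * f i ω / F ω ≤ M := by
        rw [div_le_iff₀ h3]
        exact mul_le_mul_of_nonneg_left (h1 i ω) hM0.le
      have b3 := mul_le_mul_of_nonneg_left (exp_step (hs i) hl hlM b1 b2)
        (show 0 ≤ α i * Real.exp (-(s i * l)) by positivity)
      refine le_trans (le_of_eq ?_) (b3.trans_eq (by ring))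
      simp only [hα, Fin.sum_univ_succ, Fin.cons_zero, Fin.cons_succ, ← Real.exp_add]
      congr 1
      push_cast
      ring
    have a2 : ∀ i, α i * Real.exp (-(s i * l)) + α i * Real.exp (-(s i * l)) *
        (s i * l + l ^ 2 * M) ≤ α i * Real.exp (l ^ 2 * M) := by
      intro i
      have b1 := mul_le_mul_of_nonneg_left (Real.add_one_le_exp (s i * l + l ^ 2 * M))
        (show 0 ≤ α i * Real.exp (-(s i * l)) by positivity)
      refine le_trans (le_of_eq (by ring)) (b1.trans_eq ?_)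
      rw [mul_assoc, ← Real.exp_add]
      congr 2
      ring
    have a3 := Finset.sum_le_sum fun i (_ : i ∈ Finset.univ) => a1 i
    have a4 := Finset.sum_le_sum fun i (_ : i ∈ Finset.univ) => a2 i
    rw [Finset.sum_add_distrib] at a3 a4
    rw [← Finset.sum_mul] at a4
    have a5 := mul_le_mul_of_nonneg_right H (Real.exp_pos (l ^ 2 * M)).le
    rw [mul_assoc, ← Real.exp_add] at a5
    refine (a3.trans (by linarith)).trans (a5.trans_eq ?_)
    congr 2
    push_cast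
    ring

/-- `N` points and weights which reproduce the integrals of the `f i` up to `η`. -/
theorem sample (f : I → Ω → ℝ) (F : Ω → ℝ) (Q : Ω → Prop) (hQ : ∀ᵐ ω ∂μ, Q ω)
    (hf : ∀ i, Integrable (f i) μ) (hF : Integrable F μ) (h0 : ∀ i ω, 0 ≤ f i ω)
    (h1 : ∀ i ω, f i ω ≤ F ω) (hF0 : ∀ ω, 0 ≤ F ω) (hi : ∀ i, ∫ ω, f i ω ∂μ = 1) {M' η : ℝ}
    (hM : ∫ ω, F ω ∂μ ≤ M') (hη : 0 < η) (hη1 : η ≤ 1) [Nonempty I] (N : ℕ)
    (hN : 4 * M' * Real.log (2 * Fintype.card I) / η ^ 2 ≤ N) :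
    ∃ (w : Fin N → Ω) (a : Fin N → ℝ), (∀ j, Q (w j) ∧ 0 ≤ a j) ∧
      ∀ i, |∑ j, a j * f i (w j) - 1| ≤ η := by
  obtain ⟨M, hMe⟩ : ∃ M, ∫ ω, F ω ∂μ = M := ⟨_, rfl⟩
  have hM1 : 1 ≤ M := by
    obtain ⟨i⟩ := ‹Nonempty I›
    rw [← hMe, ← hi i]
    exact integral_mono (hf i) hF (h1 i)
  have hM0 : 0 < M := by linarith
  rw [hMe] at hM
  have hI : (1 : ℝ) ≤ Fintype.card I := by exact_mod_cast Fintype.card_pos
  have hL : 0 < Real.log (2 * Fintype.card I) := Real.log_pos (by linarith)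
  have hN' : 4 * M * Real.log (2 * Fintype.card I) ≤ N * η ^ 2 := by
    rw [div_le_iff₀ (by positivity)] at hN
    refine le_trans ?_ hN
    gcongr
  have hN0 : (0 : ℝ) < N := by
    have : 0 < N * η ^ 2 := lt_of_lt_of_le (by positivity) hN'
    exact (mul_pos_iff_of_pos_right (by positivity)).1 this
  obtain ⟨w, hw, H⟩ := exists_sample (I := I × Bool) (fun i => f i.1) F Q hQ (fun i => hf i.1) hF
    (fun i => h0 i.1) (fun i => h1 i.1) hF0 (fun i => hi i.1) hMe hM0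
    (fun i => if i.2 then 1 else -1) (fun i => by split_ifs <;> simp) (l := η / (2 * M))
    (by positivity) (by field_simp; linarith) N
  refine ⟨w, fun j => M / F (w j) / N, fun j => ⟨(hw j).1, by have := (hw j).2; positivity⟩,
    fun i => ?_⟩
  have key : ∀ c : Bool, (if c then 1 else -1) * (∑ j, M * f i (w j) / F (w j) - N) ≤ η * N := by
    intro c
    have b1 := (Finset.single_le_sum (f := fun i : I × Bool => Real.exp ((if i.2 then 1 else -1) *
      (η / (2 * M)) * (∑ j, M * f i.1 (w j) / F (w j) - N))) (fun _ _ => (Real.exp_pos _).le)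
      (Finset.mem_univ (i, c))).trans H
    have b2 : (Fintype.card (I × Bool) : ℝ) = Real.exp (Real.log (2 * Fintype.card I)) := by
      rw [Real.exp_log (by linarith), Fintype.card_prod, Fintype.card_bool]
      push_cast
      ring
    rw [b2, ← Real.exp_add, Real.exp_le_exp] at b1
    simp only at b1
    generalize (if c then (1 : ℝ) else -1) = σ at *
    generalize (∑ j, M * f i (w j) / F (w j) - N) = S at *
    have b3 := mul_le_mul_of_nonneg_left b1 (show 0 ≤ 4 * M by positivity)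
    have e1 : 4 * M * (σ * (η / (2 * M)) * S) = 2 * η * (σ * S) := by field_simp; ring
    have e2 : 4 * M * (Real.log (2 * Fintype.card I) + N * ((η / (2 * M)) ^ 2 * M)) =
        4 * M * Real.log (2 * Fintype.card I) + N * η ^ 2 := by field_simp; ring
    rw [e1, e2] at b3
    refine le_of_mul_le_mul_left ?_ (show 0 < 2 * η by positivity)
    nlinarith
  have e : ∑ j, M / F (w j) / N * f i (w j) - 1 = (∑ j, M * f i (w j) / F (w j) - N) / N := by
    rw [sub_div, div_self hN0.ne', Finset.sum_div]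
    congr 1
    exact Finset.sum_congr rfl fun j _ => by ring
  have k1 := key true
  have k2 := key false
  simp only [if_true, Bool.false_eq_true, if_false] at k1 k2
  rw [e, abs_div, abs_of_pos hN0, div_le_iff₀ hN0, abs_le]
  constructor <;> linarith

end Vale.Agent.N249X
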