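import Vale.Agent.N249X.Energy
import Vale.Agent.N249X.Samp
import Vale.Agent.P249Z.Ball
import Mathlib.Analysis.Normed.Module.HahnBanach
import Mathlib.Topology.Algebra.Module.FiniteDimension
import Mathlib.Analysis.SpecificLimits.Basic

/-!
# N249X: linear maps of `n`-point subsets of `L_p` into `ℓ_p^d` with `d = O(n log n)`
-/

open MeasureTheory
open scoped BigOperators ENNReal

universe u

namespace Vale.Agent.N249X

open Vale.Agent.P249Z

variable {p : ℝ≥0∞} [Fact (1 ≤ p)] {Ω : Type*} [MeasurableSpace Ω] {μ : Measure Ω}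

/-- evaluation at almost every point is, on a finite set, a bounded linear functional -/
theorem exists_eval (X : Finset (Lp ℝ p μ)) : ∃ Φ : Ω → (Lp ℝ p μ →L[ℝ] ℝ),
    ∀ᵐ ω ∂μ, ∀ x ∈ X, Φ ω x = x ω := by
  set V := Submodule.span ℝ (X : Set (Lp ℝ p μ)) with hV
  have : FiniteDimensional ℝ V := FiniteDimensional.span_finset ℝ X
  set b := Module.finBasis ℝ V with hb
  choose g hg _ using fun j => exists_extension_norm_eq V
    (LinearMap.toContinuousLinearMap (b.coord j))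
  refine ⟨fun ω => ∑ j, ((b j : Lp ℝ p μ) ω) • g j, ?_⟩
  rw [Filter.eventually_all_finset]
  intro x hx
  have h1 : x = ∑ j, g j x • (b j : Lp ℝ p μ) := by
    have h2 := congrArg (fun v : V => (v : Lp ℝ p μ))
      (b.sum_repr ⟨x, Submodule.subset_span hx⟩)
    simp only [Submodule.coe_sum, Submodule.coe_smul] at h2
    refine h2.symm.trans (Finset.sum_congr rfl fun j _ => ?_)
    rw [hg j ⟨x, Submodule.subset_span hx⟩]
    rfl
  have h3 : ∀ᵐ ω ∂μ, ∀ j, (g j x • (b j : Lp ℝ p μ)) ω = g j x • (b j : Lp ℝ p μ) ω :=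
    ae_all_iff.2 fun j => Lp.coeFn_smul _ _
  filter_upwards [Lp.coeFn_fun_finsetSum Finset.univ fun j => g j x • (b j : Lp ℝ p μ), h3]
    with ω h4 h5
  rw [← h1] at h4
  rw [h4, sum_apply]
  refine Finset.sum_congr rfl fun j _ => ?_
  rw [h5 j, smul_apply, smul_eq_mul, smul_eq_mul, mul_comm]

/-- the total sensitivity of the pairs of an `n`-point set is at most `C n` -/
theorem exists_majorant (hp : p ≠ ∞) : ∃ C : ℝ, 0 < C ∧
    ∀ (Ω : Type u) [MeasurableSpace Ω] (μ : Measure Ω) (X : Finset (Lp ℝ p μ)),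
      ∃ F : Ω → ℝ, Integrable F μ ∧ (∀ ω, 0 ≤ F ω) ∧ ∫ ω, F ω ∂μ ≤ C * X.card ∧
        ∀ x ∈ X, ∀ y ∈ X, ∀ ω, |x ω - y ω| ^ p.toReal / ‖x - y‖ ^ p.toReal ≤ F ω := by
  have hP := toReal_pos' (p := p) hp
  have hP1 : 1 ≤ p.toReal := by
    simpa using (ENNReal.toReal_le_toReal ENNReal.one_ne_top hp).2 (Fact.out : 1 ≤ p)
  obtain ⟨Λ, hΛ⟩ := exists_nat_ge (2 * 10 ^ p.toReal : ℝ)
  have hΛ0 : (0 : ℝ) < Λ := lt_of_lt_of_le (by positivity) hΛ
  refine ⟨(224 + 48 * Λ) ^ p.toReal * 2, by positivity, fun Ω _ μ X => ?_⟩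
  choose N hN using fun (j : ℕ) (a : Lp ℝ p μ) => exists_near X a (Λ ^ j)
  set f : Lp ℝ p μ → Lp ℝ p μ → Ω → ℝ :=
    fun a b ω => |a ω - b ω| ^ p.toReal / ‖a - b‖ ^ p.toReal with hf
  have f0 : ∀ a b ω, 0 ≤ f a b ω := fun a b ω => by positivity
  have fi : ∀ a b, Integrable (f a b) μ := fun a b => (integrable_sub_rpow hp a b).div_const _
  have f1 : ∀ a b, ∫ ω, f a b ω ∂μ ≤ 1 := fun a b => by
    simp only [hf]
    rw [integral_div, integral_sub_rpow hp]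
    exact div_self_le_one _
  set e : ℕ → Ω → ℝ := fun j ω => (∑ a ∈ X, ∑ b ∈ N j a, f a b ω) / (2 * Λ) ^ j with he
  have e0 : ∀ j ω, 0 ≤ e j ω := fun j ω => div_nonneg
    (Finset.sum_nonneg fun a _ => Finset.sum_nonneg fun b _ => f0 a b ω) (by positivity)
  have ei : ∀ j, Integrable (e j) μ := fun j =>
    (integrable_finsetSum _ fun a _ => integrable_finsetSum _ fun b _ => fi a b).div_const _
  have e1 : ∀ j, ∫ ω, e j ω ∂μ ≤ (1 / 2) ^ j * X.card := by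
    intro j
    simp only [he]
    rw [integral_div, integral_finsetSum _ fun a _ => integrable_finsetSum _ fun b _ => fi a b,
      div_le_iff₀ (by positivity)]
    have h1 : ∀ a ∈ X, ∫ ω, ∑ b ∈ N j a, f a b ω ∂μ ≤ (Λ : ℝ) ^ j := by
      intro a _
      rw [integral_finsetSum _ fun b _ => fi a b]
      refine (Finset.sum_le_sum fun b _ => f1 a b).trans ?_
      rw [Finset.sum_const, nsmul_eq_mul, mul_one]
      exact_mod_cast (hN j a).2.1
    refine (Finset.sum_le_sum h1).trans_eq ?_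
    rw [Finset.sum_const, nsmul_eq_mul, mul_pow, one_div, inv_pow]
    field_simp
  have s0 : ∀ ω, 0 ≤ ∑ j ∈ Finset.range (X.card + 1), e j ω :=
    fun ω => Finset.sum_nonneg fun j _ => e0 j ω
  refine ⟨fun ω => (224 + 48 * Λ) ^ p.toReal * ∑ j ∈ Finset.range (X.card + 1), e j ω,
    (integrable_finsetSum _ fun j _ => ei j).const_mul _,
    fun ω => mul_nonneg (by positivity) (s0 ω), ?_, fun x hx y hy ω => ?_⟩
  · rw [integral_const_mul, integral_finsetSum _ fun j _ => ei j, mul_assoc]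
    refine mul_le_mul_of_nonneg_left ?_ (by positivity)
    refine (Finset.sum_le_sum fun j _ => e1 j).trans ?_
    rw [← Finset.sum_mul]
    exact mul_le_mul_of_nonneg_right (sum_geometric_two_le _) (Nat.cast_nonneg _)
  · have h8 := Real.rpow_nonneg (s0 ω) p.toReal⁻¹
    have h4 := lip_of_energy hP1 hΛ X N hN (fun z => z ω) (fun a b => f a b ω)
      (fun a b => f0 a b ω) (fun a b t ht h => by
        rcases eq_or_ne a b with rfl | h'
        · simp
        have h5 : 0 < ‖a - b‖ := norm_pos_iff.2 (sub_ne_zero.2 h')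
        rw [dist_eq_norm, ← Real.rpow_le_rpow_iff (abs_nonneg _) (mul_nonneg ht h5.le) hP,
          Real.mul_rpow ht h5.le]
        exact (div_le_iff₀ (Real.rpow_pos_of_pos h5 _)).1 h) h8 (fun j hj => by
        rw [Real.rpow_inv_rpow (s0 ω) hP.ne', ← div_le_iff₀' (by positivity)]
        exact Finset.single_le_sum (f := fun j => e j ω) (fun j _ => e0 j ω)
          (Finset.mem_range.2 (by omega))) hx hy
    have h7 := Real.rpow_le_rpow (abs_nonneg _) h4 hP.le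
    rw [dist_eq_norm, Real.mul_rpow (by positivity) (norm_nonneg _),
      Real.mul_rpow (by positivity) h8, Real.rpow_inv_rpow (s0 ω) hP.ne'] at h7
    exact div_le_of_le_mul₀ (by positivity) (mul_nonneg (by positivity) (s0 ω)) h7

theorem lin_embed (hp : p ≠ ∞) (X : Finset (Lp ℝ p μ)) {M : ℝ} (hM : 0 ≤ M) {F : Ω → ℝ}
    (F1 : Integrable F μ) (F2 : ∀ ω, 0 ≤ F ω) (F3 : ∫ ω, F ω ∂μ ≤ M)
    (F4 : ∀ x ∈ X, ∀ y ∈ X, ∀ ω, |x ω - y ω| ^ p.toReal / ‖x - y‖ ^ p.toReal ≤ F ω) {ε : ℝ}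
    (hε : 0 < ε) (hε1 : ε ≤ 1) (N : ℕ)
    (hN : 4 * M * Real.log (2 * (X.card : ℝ) ^ 2) / (ε / 3) ^ 2 ≤ N) :
    ∃ T : Lp ℝ p μ →L[ℝ] PiLp p (fun _ : Fin N => ℝ), ∃ s : ℝ, 0 < s ∧ ∀ x ∈ X, ∀ y ∈ X,
      s * ‖x - y‖ ≤ ‖T x - T y‖ ∧ ‖T x - T y‖ ≤ (1 + ε) * s * ‖x - y‖ := by
  classical
  have hP := toReal_pos' (p := p) hp
  have hP1 : 1 ≤ p.toReal := by
    simpa using (ENNReal.toReal_le_toReal ENNReal.one_ne_top hp).2 (Fact.out : 1 ≤ p)
  rcases isEmpty_or_nonempty X.offDiag with hE | hE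
  · refine ⟨0, 1, one_pos, fun x hx y hy => ?_⟩
    have : x = y := by
      by_contra h
      exact hE.false ⟨(x, y), Finset.mem_offDiag.2 ⟨hx, hy, h⟩⟩
    simp [this]
  obtain ⟨Φ, hΦ⟩ := exists_eval X
  have hpos : ∀ e : X.offDiag, 0 < ‖e.1.1 - e.1.2‖ ^ p.toReal := fun e =>
    Real.rpow_pos_of_pos (norm_pos_iff.2 (sub_ne_zero.2 (Finset.mem_offDiag.1 e.2).2.2)) _
  obtain ⟨w, a, hw, H⟩ := sample (I := X.offDiag)
    (fun e ω => |e.1.1 ω - e.1.2 ω| ^ p.toReal / ‖e.1.1 - e.1.2‖ ^ p.toReal) F _ hΦ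
    (fun e => (integrable_sub_rpow hp _ _).div_const _) F1 (fun e ω => by positivity)
    (fun e => F4 _ (Finset.mem_offDiag.1 e.2).1 _ (Finset.mem_offDiag.1 e.2).2.1) F2
    (fun e => by rw [integral_div, integral_sub_rpow hp, div_self (hpos e).ne']) F3
    (η := ε / 3) (by positivity) (by linarith) N (by
      refine le_trans ?_ hN
      have h1 : (1 : ℝ) ≤ Fintype.card X.offDiag := by exact_mod_cast Fintype.card_pos
      have h2 : (Fintype.card X.offDiag : ℝ) ≤ (X.card : ℝ) ^ 2 := by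
        rw [Fintype.card_coe, Finset.offDiag_card, sq]
        exact_mod_cast Nat.sub_le _ _
      gcongr)
  have hη : 0 < 1 - ε / 3 := by linarith
  refine ⟨(PiLp.continuousLinearEquiv p ℝ (fun _ : Fin N => ℝ)).symm.toContinuousLinearMap ∘L
    ContinuousLinearMap.pi fun j => (a j ^ p.toReal⁻¹) • Φ (w j), (1 - ε / 3) ^ p.toReal⁻¹,
    Real.rpow_pos_of_pos hη _, fun x hx y hy => ?_⟩
  rcases eq_or_ne x y with rfl | hxy
  · simp
  set T := (PiLp.continuousLinearEquiv p ℝ (fun _ : Fin N => ℝ)).symm.toContinuousLinearMap ∘L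
    ContinuousLinearMap.pi fun j => (a j ^ p.toReal⁻¹) • Φ (w j) with hT
  have h1 := H ⟨(x, y), Finset.mem_offDiag.2 ⟨hx, hy, hxy⟩⟩
  have h2 := hpos ⟨(x, y), Finset.mem_offDiag.2 ⟨hx, hy, hxy⟩⟩
  simp only at h1 h2
  have h3 : ‖T x - T y‖ ^ p.toReal =
      (∑ j, a j * (|x (w j) - y (w j)| ^ p.toReal / ‖x - y‖ ^ p.toReal)) * ‖x - y‖ ^ p.toReal := by
    rw [norm_rpow_sum hp, Finset.sum_mul]
    refine Finset.sum_congr rfl fun j _ => ?_
    have h4 : (T x - T y) j = a j ^ p.toReal⁻¹ * (x (w j) - y (w j)) := by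
      rw [← (hw j).1 x hx, ← (hw j).1 y hy, mul_sub]
      rfl
    have h5 := Real.rpow_nonneg (hw j).2 p.toReal⁻¹
    rw [h4, abs_mul, abs_of_nonneg h5, Real.mul_rpow h5 (abs_nonneg _),
      Real.rpow_inv_rpow (hw j).2 hP.ne']
    field_simp
  obtain ⟨h6, h7⟩ := abs_le.1 h1
  have h8 := Real.rpow_nonneg hη.le p.toReal⁻¹
  constructor
  · rw [← Real.rpow_le_rpow_iff (by positivity) (norm_nonneg _) hP,
      Real.mul_rpow h8 (norm_nonneg _), Real.rpow_inv_rpow hη.le hP.ne', h3]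
    exact mul_le_mul_of_nonneg_right (by linarith) h2.le
  · rw [← Real.rpow_le_rpow_iff (norm_nonneg _) (by positivity) hP,
      Real.mul_rpow (by positivity) (norm_nonneg _), Real.mul_rpow (by positivity) h8,
      Real.rpow_inv_rpow hη.le hP.ne', h3]
    refine mul_le_mul_of_nonneg_right ?_ h2.le
    have h9 : 1 + ε ≤ (1 + ε) ^ p.toReal := by
      conv_lhs => rw [← Real.rpow_one (1 + ε)]
      exact Real.rpow_le_rpow_of_exponent_le (by linarith) hP1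
    have h10 := mul_le_mul_of_nonneg_right h9 hη.le
    nlinarith

/-- The bound `n log n / ε ^ 2`: one dimension `N` serves all `n`-point subsets of all `L_p(μ)`. -/
theorem near_linear (hp : p ≠ ∞) : ∃ C : ℝ, 0 < C ∧ ∀ n : ℕ, 2 ≤ n → ∀ ε : ℝ, 0 < ε → ε ≤ 1 →
    ∃ N : ℕ, (N : ℝ) ≤ C * n * Real.log n / ε ^ 2 ∧
      ∀ (Ω : Type u) [MeasurableSpace Ω] (μ : Measure Ω) (X : Finset (Lp ℝ p μ)), X.card = n →
        ∃ T : Lp ℝ p μ →L[ℝ] PiLp p (fun _ : Fin N => ℝ), ∃ s : ℝ, 0 < s ∧ ∀ x ∈ X, ∀ y ∈ X,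
          s * ‖x - y‖ ≤ ‖T x - T y‖ ∧ ‖T x - T y‖ ≤ (1 + ε) * s * ‖x - y‖ := by
  obtain ⟨C, hC, H⟩ := exists_majorant.{u} hp
  refine ⟨108 * C + 1, by positivity, fun n hn ε hε hε1 =>
    ⟨⌈4 * (C * n) * Real.log (2 * (n : ℝ) ^ 2) / (ε / 3) ^ 2⌉₊, ?_, fun Ω _ μ X hX => ?_⟩⟩
  · have hn2 : (2 : ℝ) ≤ n := by exact_mod_cast hn
    have hl2 := Real.log_two_gt_d9
    have h1 : Real.log 2 ≤ Real.log n := Real.log_le_log (by norm_num) hn2
    have h4 : Real.log (2 * (n : ℝ) ^ 2) ≤ 3 * Real.log n := by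
      rw [Real.log_mul (by norm_num) (by positivity), Real.log_pow]
      push_cast
      linarith
    have h5 : 0 ≤ Real.log (2 * (n : ℝ) ^ 2) := Real.log_nonneg (by nlinarith)
    refine (Nat.ceil_lt_add_one (by positivity)).le.trans ?_
    have h7 : 4 * (C * n) * Real.log (2 * (n : ℝ) ^ 2) / (ε / 3) ^ 2 ≤
        4 * (C * n) * (3 * Real.log n) / (ε / 3) ^ 2 := by gcongr
    have h10 : 1 ≤ n * Real.log n / ε ^ 2 := by
      rw [le_div_iff₀ (by positivity)]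
      have : ε ^ 2 ≤ 1 := pow_le_one₀ hε.le hε1
      nlinarith
    calc _ ≤ 4 * (C * n) * (3 * Real.log n) / (ε / 3) ^ 2 + n * Real.log n / ε ^ 2 := by linarith
      _ = _ := by ring
  · subst hX
    obtain ⟨F, F1, F2, F3, F4⟩ := H Ω μ X
    exact lin_embed hp X (by positivity) F1 F2 F3 F4 hε hε1 _ (Nat.le_ceil _)

end Vale.Agent.N249X
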