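import Vale.Agent.N249.Master

/-!
# N249X: linear maps need a dimension proportional to `n` (the Walsh matrix argument)
-/

open MeasureTheory
open scoped BigOperators ENNReal

universe u

namespace Vale.Agent.N249X

open Vale.Agent.P249Z Vale.Agent.N249

/-- the Walsh matrix -/
noncomputable def walsh {k : ℕ} (a b : Fin k → Bool) : ℝ := ∏ l, if a l && b l then -1 else 1

theorem abs_walsh {k : ℕ} (a b : Fin k → Bool) : |walsh a b| = 1 := by
  rw [walsh, Finset.abs_prod]
  exact Finset.prod_eq_one fun l _ => by split_ifs <;> simp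

theorem walsh_orth {k : ℕ} (b b' : Fin k → Bool) :
    ∑ a, walsh a b * walsh a b' = if b = b' then 2 ^ k else 0 := by
  simp only [walsh, ← Finset.prod_mul_distrib]
  rw [← Fintype.prod_sum fun l (β : Bool) =>
    (if β && b l then (-1 : ℝ) else 1) * if β && b' l then -1 else 1]
  split_ifs with h
  · subst h
    rw [Finset.prod_congr rfl (g := fun _ => (2 : ℝ)) fun l _ => by cases b l <;> norm_num]
    simp
  · obtain ⟨l, hl⟩ := Function.ne_iff.1 h
    refine Finset.prod_eq_zero (Finset.mem_univ l) ?_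
    revert hl
    cases b l <;> cases b' l <;> simp

theorem walsh_sum {k d : ℕ} (U : ((Fin k → Bool) → ℝ) →ₗ[ℝ] Fin d → ℝ) :
    ∑ a, A 2 (U (walsh a)) = 2 ^ k * ∑ b, A 2 (U (Pi.single b 1)) := by
  classical
  simp only [A, Real.rpow_two, sq_abs]
  rw [Finset.sum_comm, Finset.sum_comm (s := Finset.univ) (t := Finset.univ)
    (f := fun b z => U (Pi.single b 1) z ^ 2), Finset.mul_sum]
  refine Finset.sum_congr rfl fun z _ => ?_
  have h1 : ∀ a, U (walsh a) z = ∑ b, walsh a b * U (Pi.single b 1) z := by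
    intro a
    conv_lhs => rw [pi_eq_sum_univ' (walsh a), map_sum, Finset.sum_apply]
    simp
  simp only [h1, sq, Finset.sum_mul_sum]
  rw [Finset.sum_comm, Finset.mul_sum]
  refine Finset.sum_congr rfl fun b _ => ?_
  rw [Finset.sum_comm]
  have h2 : ∀ b', ∑ a, walsh a b * U (Pi.single b 1) z * (walsh a b' * U (Pi.single b' 1) z) =
      if b = b' then 2 ^ k * (U (Pi.single b 1) z * U (Pi.single b' 1) z) else 0 := by
    intro b'
    rw [← ite_zero_mul, ← walsh_orth, Finset.sum_mul]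
    exact Finset.sum_congr rfl fun a _ => by ring
  simp [h2]

theorem walsh_core {P D s : ℝ} (hP1 : 1 < P) (hP2 : P ≠ 2) (hD : 0 < D) (hs : 0 < s) {k d : ℕ}
    (U : ((Fin k → Bool) → ℝ) →ₗ[ℝ] Fin d → ℝ)
    (h1 : ∀ b, s ^ P ≤ A P (U (Pi.single b 1)) ∧ A P (U (Pi.single b 1)) ≤ (D * s) ^ P)
    (h2 : ∀ a, s ^ P * 2 ^ k ≤ A P (U (walsh a)) ∧ A P (U (walsh a)) ≤ (D * s) ^ P * 2 ^ k) :
    2 ^ k * D ^ (-(2 / |1 - 2 / P|)) ≤ d := by
  have hP0 : 0 < P := by linarith
  have hm : (0 : ℝ) < 2 ^ k := by positivity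
  have hW := walsh_sum U
  have fin : ∀ δ γ : ℝ, 0 < δ → ((2 : ℝ) ^ k) ^ δ ≤ (d : ℝ) ^ δ * D ^ γ →
      γ = 2 / |1 - 2 / P| * δ → 2 ^ k * D ^ (-(2 / |1 - 2 / P|)) ≤ d := by
    intro δ γ hδ h e
    rw [e, Real.rpow_mul hD.le, ← Real.mul_rpow (by positivity) (by positivity),
      Real.rpow_le_rpow_iff (by positivity) (by positivity) hδ] at h
    rwa [Real.rpow_neg hD.le, ← div_eq_mul_inv, div_le_iff₀ (by positivity)]
  rcases lt_or_gt_of_ne hP2 with h | h
  · have hδ : 0 < 2 / P - 1 := by rw [sub_pos, lt_div_iff₀ hP0]; linarith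
    have e : P * (1 + (2 / P - 1)) = 2 := by field_simp; ring
    have a1 : ∀ b, A 2 (U (Pi.single b 1)) ≤ (D * s) ^ (2 : ℝ) := by
      intro b
      have b1 := A_high (P := P) hδ.le (U (Pi.single b 1))
      have b2 := Real.rpow_le_rpow (A_nonneg _ _) (h1 b).2 (show 0 ≤ 1 + (2 / P - 1) by linarith)
      rw [← Real.rpow_mul (by positivity), e] at b2
      rw [e] at b1
      exact b1.trans b2
    obtain ⟨a, -, ha⟩ := Finset.exists_le_of_sum_le (s := Finset.univ) Finset.univ_nonempty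
      (f := fun a => A 2 (U (walsh a))) (g := fun _ => 2 ^ k * (D * s) ^ (2 : ℝ)) (by
        rw [hW, ← Finset.mul_sum]
        exact mul_le_mul_of_nonneg_left (Finset.sum_le_sum fun b _ => a1 b) hm.le)
    have b1 := A_low (P := P) hδ.le (U (walsh a))
    have b2 := Real.rpow_le_rpow (by positivity) (h2 a).1 (show 0 ≤ 1 + (2 / P - 1) by linarith)
    rw [Real.mul_rpow (by positivity) hm.le, ← Real.rpow_mul hs.le, e, Real.rpow_add hm,
      Real.rpow_one] at b2
    rw [e] at b1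
    have b3 := (b2.trans b1).trans (mul_le_mul_of_nonneg_left ha (by positivity))
    rw [Real.mul_rpow hD.le hs.le] at b3
    refine fin _ 2 hδ (le_of_mul_le_mul_left ?_ (show 0 < s ^ (2 : ℝ) * 2 ^ k by positivity)) ?_
    · linarith
    · rw [abs_of_neg (by linarith), neg_sub, div_mul_cancel₀ _ hδ.ne']
  · have hδ : 0 < P / 2 - 1 := by linarith
    have e : 2 * (1 + (P / 2 - 1)) = P := by ring
    have a1 : ∀ b, s ^ (2 : ℝ) ≤ A 2 (U (Pi.single b 1)) := by
      intro b
      have b1 := A_high (P := 2) hδ.le (U (Pi.single b 1))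
      rw [e] at b1
      rw [← Real.rpow_le_rpow_iff (by positivity) (A_nonneg _ _)
        (show 0 < 1 + (P / 2 - 1) by linarith), ← Real.rpow_mul hs.le, e]
      exact (h1 b).1.trans b1
    obtain ⟨a, -, ha⟩ := Finset.exists_le_of_sum_le (s := Finset.univ) Finset.univ_nonempty
      (g := fun a => A 2 (U (walsh a))) (f := fun _ => 2 ^ k * s ^ (2 : ℝ)) (by
        rw [hW, ← Finset.mul_sum]
        exact mul_le_mul_of_nonneg_left (Finset.sum_le_sum fun b _ => a1 b) hm.le)
    have b1 := A_low (P := 2) hδ.le (U (walsh a))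
    have b2 := Real.rpow_le_rpow (by positivity) ha (show 0 ≤ 1 + (P / 2 - 1) by linarith)
    rw [Real.mul_rpow hm.le (by positivity), ← Real.rpow_mul hs.le, e, Real.rpow_add hm,
      Real.rpow_one] at b2
    rw [e] at b1
    have b3 := (b2.trans b1).trans (mul_le_mul_of_nonneg_left (h2 a).2 (by positivity))
    rw [Real.mul_rpow hD.le hs.le] at b3
    refine fin _ P hδ (le_of_mul_le_mul_left ?_ (show 0 < s ^ P * 2 ^ k by positivity)) ?_
    · linarith
    · have : 0 < 1 - 2 / P := by rw [sub_pos, div_lt_one hP0]; exact h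
      have h3 : P - 2 ≠ 0 := by linarith
      rw [abs_of_pos this]
      field_simp

variable {p : ℝ≥0∞} [Fact (1 ≤ p)]

theorem exists_lin (hp : p ≠ ∞) (J : Type) [Fintype J] :
    ∃ (Ω : Type u) (_ : MeasurableSpace Ω) (μ : Measure Ω) (ι : (J → ℝ) →ₗ[ℝ] Lp ℝ p μ),
      ∀ v, ‖ι v‖ ^ p.toReal = A p.toReal v := by
  let : MeasurableSpace (ULift.{u} J) := ⊤
  have : DiscreteMeasurableSpace (ULift.{u} J) := ⟨fun _ => trivial⟩
  have hmem : ∀ v : J → ℝ,
      MemLp (fun ω : ULift.{u} J => v ω.down) p Measure.count := fun v => MemLp.of_discrete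
  refine ⟨ULift.{u} J, inferInstance, Measure.count,
    ⟨⟨fun v => (hmem v).toLp _, fun _ _ => rfl⟩, fun _ _ => rfl⟩, fun v => ?_⟩
  change ‖((hmem v).toLp _ : Lp ℝ p Measure.count)‖ ^ p.toReal = _
  rw [← sub_zero ((hmem v).toLp _), ← integral_sub_rpow hp]
  have h1 : (fun ω : ULift.{u} J => |((hmem v).toLp _ : Lp ℝ p Measure.count) ω -
      (0 : Lp ℝ p (Measure.count : Measure (ULift.{u} J))) ω| ^ p.toReal) =ᵐ[Measure.count]
      fun ω : ULift.{u} J => |v ω.down| ^ p.toReal := by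
    filter_upwards [(hmem v).coeFn_toLp, Lp.coeFn_zero ℝ p Measure.count] with ω h1 h2
    rw [h1, h2, Pi.zero_apply, sub_zero]
  rw [integral_congr_ae h1, integral_count]
  exact Fintype.sum_equiv Equiv.ulift _ _ fun ω => rfl

/-- An `n`-point set on which linear maps of distortion `D` need dimension `c n`. -/
theorem lin_needs (hp1 : 1 < p) (hp : p ≠ ∞) (hp2 : p ≠ 2) {n : ℕ} (hn : 3 ≤ n) :
    ∃ (Ω : Type u) (_ : MeasurableSpace Ω) (μ : Measure Ω) (X : Finset (Lp ℝ p μ)), X.card = n ∧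
      ∀ (d : ℕ) (D s : ℝ) (T : Lp ℝ p μ →ₗ[ℝ] PiLp p (fun _ : Fin d => ℝ)), 0 < D → 0 < s →
        (∀ x ∈ X, ∀ y ∈ X, s * ‖x - y‖ ≤ ‖T x - T y‖ ∧ ‖T x - T y‖ ≤ D * s * ‖x - y‖) →
          (n : ℝ) / 4 * D ^ (-(2 / |1 - 2 / p.toReal|)) ≤ d := by
  classical
  have hP1 := one_lt_toReal hp1 hp
  have hP0 : 0 < p.toReal := by linarith
  obtain ⟨k, hk⟩ : ∃ k, k = Nat.log 2 ((n - 1) / 2) := ⟨_, rfl⟩
  have k1 : 2 ^ k ≤ (n - 1) / 2 := hk ▸ Nat.pow_log_le_self 2 (by omega)
  have k2 : (n - 1) / 2 < 2 ^ (k + 1) := hk ▸ Nat.lt_pow_succ_log_self (by norm_num) _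
  obtain ⟨Ω, _, μ, ι, hι⟩ := exists_lin.{u} hp (Fin k → Bool)
  have hinj : Function.Injective ι := by
    refine (injective_iff_map_eq_zero ι).2 fun v hv => funext fun j => ?_
    have h1 := le_A p.toReal v j
    rw [← hι, hv, norm_zero, Real.zero_rpow hP0.ne'] at h1
    exact abs_eq_zero.1 ((Real.rpow_eq_zero (abs_nonneg _) hP0.ne').1
      (le_antisymm h1 (Real.rpow_nonneg (abs_nonneg _) _)))
  have : Infinite (Lp ℝ p μ) := Infinite.of_injective ι hinj
  obtain ⟨X, hX, hXn⟩ := Infinite.exists_superset_card_eq (insert 0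
    ((Finset.univ.image fun b => ι (Pi.single b 1)) ∪ Finset.univ.image fun a => ι (walsh a))) n (by
      refine (Finset.card_insert_le _ _).trans ?_
      have h1 := Finset.card_union_le (Finset.univ.image fun b => ι (Pi.single b 1))
        (Finset.univ.image fun a => ι (walsh a))
      have h2 := Finset.card_image_le (s := Finset.univ) (f := fun b => ι (Pi.single b 1))
      have h3 := Finset.card_image_le (s := Finset.univ) (f := fun a => ι (walsh a))
      simp only [Finset.card_univ, Fintype.card_pi, Fintype.card_bool, Finset.prod_const,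
        Fintype.card_fin] at h2 h3
      omega)
  refine ⟨Ω, inferInstance, μ, X, hXn, fun d D s T hD hs hT => ?_⟩
  have key : ∀ v, ι v ∈ X → s ^ p.toReal * A p.toReal v ≤
      A p.toReal (((WithLp.linearEquiv p ℝ (Fin d → ℝ)).toLinearMap ∘ₗ T ∘ₗ ι) v) ∧
      A p.toReal (((WithLp.linearEquiv p ℝ (Fin d → ℝ)).toLinearMap ∘ₗ T ∘ₗ ι) v) ≤
        (D * s) ^ p.toReal * A p.toReal v := by
    intro v hv
    obtain ⟨h1, h2⟩ := hT _ hv 0 (hX (by simp))
    rw [map_zero, sub_zero, sub_zero] at h1 h2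
    have h3 := Real.rpow_le_rpow (by positivity) h1 hP0.le
    have h4 := Real.rpow_le_rpow (by positivity) h2 hP0.le
    rw [Real.mul_rpow (by positivity) (norm_nonneg _), hι, norm_rpow_sum hp] at h3 h4
    exact ⟨h3, h4⟩
  have e1 : ∀ b : Fin k → Bool, A p.toReal (Pi.single b (1 : ℝ) : (Fin k → Bool) → ℝ) = 1 := by
    intro b
    rw [A_of_abs (S := {b}) (h := 1) hP0 fun j => by by_cases h : j = b <;> simp [h]]
    simp
  have e2 : ∀ a : Fin k → Bool, A p.toReal (walsh a) = 2 ^ k := fun a => by simp [A, abs_walsh]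
  refine le_trans ?_ (walsh_core hP1 (toReal_ne_two hp hp2) hD hs
    ((WithLp.linearEquiv p ℝ (Fin d → ℝ)).toLinearMap ∘ₗ T ∘ₗ ι)
    (fun b => by simpa only [e1, mul_one] using key (Pi.single b 1) (hX (by simp)))
    (fun a => by simpa only [e2] using key (walsh a) (hX (by simp))))
  refine mul_le_mul_of_nonneg_right ?_ (by positivity)
  have : (n : ℝ) ≤ 4 * 2 ^ k := by exact_mod_cast (by rw [pow_succ] at k2; omega : n ≤ 4 * 2 ^ k)
  linarith

end Vale.Agent.N249X
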