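import Vale.Agent.N249X.Poly
import Vale.Agent.N249X.Lin
import Vale.Agent.N249X.Walsh

/-!
# N249X: the dimension for linear maps, and distortions tending to `1`
-/

open MeasureTheory Filter Asymptotics Topology
open scoped BigOperators ENNReal

universe u

namespace Vale.Agent.N249X

open Vale.Agent.P249Z Vale.Agent.N249

/-- every `n`-point subset of every `L_p(μ)` has a bounded linear map into `ℓ_p^d` of distortion
at most `D` -/
def LinAdm (p : ℝ≥0∞) [Fact (1 ≤ p)] (n : ℕ) (D : ℝ) (d : ℕ) : Prop :=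
  ∀ (Ω : Type u) [MeasurableSpace Ω] (μ : Measure Ω) (X : Finset (Lp ℝ p μ)), X.card = n →
    ∃ T : Lp ℝ p μ →L[ℝ] PiLp p (fun _ : Fin d => ℝ), ∃ s : ℝ, 0 < s ∧ ∀ x ∈ X, ∀ y ∈ X,
      s * ‖x - y‖ ≤ ‖T x - T y‖ ∧ ‖T x - T y‖ ≤ D * s * ‖x - y‖

/-- the least dimension for linear maps -/
noncomputable def dimL (p : ℝ≥0∞) [Fact (1 ≤ p)] (n : ℕ) (D : ℝ) : ℕ :=
  sInf {d : ℕ | LinAdm.{u} p n D d}

variable {p : ℝ≥0∞} [Fact (1 ≤ p)]

theorem linAdm_dimL (hp : p ≠ ∞) (n : ℕ) {D : ℝ} (hD : 1 < D) :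
    LinAdm.{u} p n D (dimL.{u} p n D) := by
  refine Nat.sInf_mem (s := {d : ℕ | LinAdm.{u} p n D d}) ?_
  rcases lt_or_ge n 2 with hn | hn
  · refine ⟨0, fun Ω _ μ X hX => ⟨0, 1, one_pos, fun x hx y hy => ?_⟩⟩
    rw [Finset.card_le_one.1 (by omega) x hx y hy]
    simp
  obtain ⟨C, -, H⟩ := near_linear.{u} hp
  obtain ⟨N, -, hN⟩ := H n hn (min 1 (D - 1)) (lt_min one_pos (by linarith)) (min_le_left _ _)
  refine ⟨N, fun Ω _ μ X hX => ?_⟩
  obtain ⟨T, s, hs, hT⟩ := hN Ω μ X hX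
  refine ⟨T, s, hs, fun x hx y hy => ⟨(hT x hx y hy).1, (hT x hx y hy).2.trans ?_⟩⟩
  have := min_le_right 1 (D - 1)
  gcongr
  linarith

theorem le_dimL (hp1 : 1 < p) (hp : p ≠ ∞) (hp2 : p ≠ 2) {n : ℕ} (hn : 3 ≤ n) {D : ℝ}
    (hD : 1 < D) : (n : ℝ) / 4 * D ^ (-(2 / |1 - 2 / p.toReal|)) ≤ dimL.{u} p n D := by
  obtain ⟨Ω, _, μ, X, hX, H⟩ := lin_needs.{u} hp1 hp hp2 hn
  obtain ⟨T, s, hs, hT⟩ := linAdm_dimL.{u} hp n hD Ω μ X hX
  exact H _ D s T.toLinearMap (by linarith) hs hT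

theorem dimU_le_dimL (hp : p ≠ ∞) (n : ℕ) {D : ℝ} (hD : 1 < D) :
    dimU.{u} p n D ≤ dimL.{u} p n D := by
  refine (dimU_isLeast hp n hD.le).2 fun Ω _ μ X hX => ?_
  obtain ⟨T, hT⟩ := linAdm_dimL.{u} hp n hD Ω μ X hX
  exact ⟨T, hT⟩

theorem dimL_le (hp : p ≠ ∞) : ∃ C : ℝ, 0 < C ∧ ∀ n : ℕ, 2 ≤ n → ∀ ε : ℝ, 0 < ε → ε ≤ 1 →
    (dimL.{u} p n (1 + ε) : ℝ) ≤ C * n * Real.log n / ε ^ 2 := by
  obtain ⟨C, hC, H⟩ := near_linear.{u} hp
  refine ⟨C, hC, fun n hn ε hε hε1 => ?_⟩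
  obtain ⟨N, h1, h2⟩ := H n hn ε hε hε1
  refine le_trans ?_ h1
  exact_mod_cast Nat.sInf_le (s := {d : ℕ | LinAdm.{u} p n (1 + ε) d}) h2

theorem dimU_le (hp : p ≠ ∞) : ∃ C : ℝ, 0 < C ∧ ∀ n : ℕ, 2 ≤ n → ∀ ε : ℝ, 0 < ε → ε ≤ 1 →
    (dimU.{u} p n (1 + ε) : ℝ) ≤ C * n * Real.log n / ε ^ 2 := by
  obtain ⟨C, hC, H⟩ := dimL_le.{u} hp
  refine ⟨C, hC, fun n hn ε hε hε1 => le_trans ?_ (H n hn ε hε hε1)⟩
  exact_mod_cast dimU_le_dimL.{u} hp n (by linarith)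

theorem thr_super (hp1 : 1 < p) (hp : p ≠ ∞) (hp2 : p ≠ 2) {a : ℝ} (ha : min p.toReal 2 < a) :
    Tendsto (fun n : ℕ => (dimU.{u} p n (1 + Real.log n ^ (-a)) : ℝ) / n) atTop atTop := by
  obtain ⟨C, c, hC, hc, H⟩ := poly_lower.{u} hp1 hp hp2
  have hP1 := one_lt_toReal hp1 hp
  have hm : 1 ≤ min p.toReal 2 := le_min hP1.le (by norm_num)
  have h7 : 1 - a / min p.toReal 2 < 0 := by
    rw [sub_neg, lt_div_iff₀ (by linarith)]
    linarith
  have h1 : Tendsto (fun n : ℕ => c / 2 *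
      min (n : ℝ) (Real.log n ^ (a * (1 / (12 * p.toReal ^ 2))))) atTop atTop := by
    refine Tendsto.const_mul_atTop (by positivity) (tendsto_atTop.2 fun b => ?_)
    filter_upwards [tendsto_natCast_atTop_atTop.eventually_ge_atTop b,
      ((tendsto_rpow_atTop (y := a * (1 / (12 * p.toReal ^ 2)))
        (mul_pos (by linarith) (by positivity))).comp log_top).eventually_ge_atTop b] with n h1 h2
    exact le_min h1 h2
  refine tendsto_atTop_mono' _ ?_ h1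
  filter_upwards [ev_log (a := a) (by linarith),
    (log_rpow_zero h7 C).eventually (gt_mem_nhds (show (0 : ℝ) < 1 / 2 by norm_num))]
    with n ⟨h1, h2, h3, h4⟩ h5
  have h0 : 0 < Real.log n := by linarith
  have hn : (0 : ℝ) < n := by positivity
  have h6 := H n h1 _ h3 h4
  rw [← Real.rpow_mul h0.le, ← Real.rpow_mul h0.le, neg_mul_neg, mul_assoc C,
    ← Real.rpow_add_one h0.ne', show -a * (1 / min p.toReal 2) + 1 = 1 - a / min p.toReal 2 by ring]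
    at h6
  rw [le_div_iff₀ hn]
  refine le_trans ?_ h6
  have h8 : 0 ≤ c * n * min (n : ℝ) (Real.log n ^ (a * (1 / (12 * p.toReal ^ 2)))) := by positivity
  have := mul_le_mul_of_nonneg_left (show 1 / 2 ≤ 1 - C * Real.log n ^ (1 - a / min p.toReal 2) by
    linarith) h8
  linarith

theorem thr_one (hp1 : 1 < p) (hp : p ≠ ∞) (hp2 : p ≠ 2) {a : ℝ} (ha : min p.toReal 2 < a) :
    Tendsto (fun n : ℕ => Real.log (dimU.{u} p n (1 + Real.log n ^ (-a))) / Real.log n) atTop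
      (𝓝 1) := by
  obtain ⟨C, hC, H⟩ := dimU_le.{u} hp
  have hm : 1 ≤ min p.toReal 2 := le_min (one_lt_toReal hp1 hp).le (by norm_num)
  have h1 : Tendsto (fun n : ℕ => 1 + (Real.log C / Real.log n +
      (1 + 2 * a) * (Real.log (Real.log n) / Real.log n))) atTop (𝓝 1) := by
    have b1 := (Real.isLittleO_log_id_atTop.tendsto_div_nhds_zero.comp log_top).const_mul
      (1 + 2 * a)
    have b2 := (log_top.const_div_atTop (Real.log C)).add b1
    simpa using b2.const_add 1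
  refine tendsto_of_tendsto_of_tendsto_of_le_of_le' tendsto_const_nhds h1 ?_ ?_
  · filter_upwards [ev_log (a := a) (by linarith),
      (thr_super.{u} hp1 hp hp2 ha).eventually_ge_atTop 1] with n ⟨h1, h2, _, _⟩ h5
    have hn : (0 : ℝ) < n := by positivity
    rw [le_div_iff₀ hn, one_mul] at h5
    rw [le_div_iff₀ (by linarith), one_mul]
    exact Real.log_le_log hn h5
  · filter_upwards [ev_log (a := a) (by linarith)] with n ⟨h1, h2, h3, h4⟩
    have h0 : 0 < Real.log n := by linarith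
    have hn : (0 : ℝ) < n := by positivity
    have h5 : (1 : ℝ) ≤ dimU.{u} p n (1 + Real.log n ^ (-a)) := by
      exact_mod_cast one_le_dimU.{u} hp h1 (by linarith)
    have h6 := Real.log_le_log (by linarith) (H n h1 _ h3 h4)
    rw [Real.log_div (by positivity) (by positivity), Real.log_mul (by positivity) h0.ne',
      Real.log_mul hC.ne' hn.ne', Real.log_pow, Real.log_rpow h0] at h6
    rw [div_le_iff₀ h0]
    refine h6.trans_eq ?_
    push_cast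
    field_simp
    ring

theorem ev_pow {α : ℝ} (hα : 0 ≤ α) : ∀ᶠ n : ℕ in atTop, 2 ≤ n ∧ (1 : ℝ) ≤ n ∧
    0 < (n : ℝ) ^ (-α) ∧ (n : ℝ) ^ (-α) ≤ 1 := by
  filter_upwards [eventually_ge_atTop 2] with n h1
  have h2 : (1 : ℝ) ≤ n := by exact_mod_cast (by omega : 1 ≤ n)
  exact ⟨h1, h2, Real.rpow_pos_of_pos (by linarith) _,
    Real.rpow_le_one_of_one_le_of_nonpos h2 (by linarith)⟩

theorem log_div_zero {s : ℝ} (hs : 0 < s) (C : ℝ) :
    Tendsto (fun n : ℕ => C * (Real.log n / (n : ℝ) ^ s)) atTop (𝓝 0) := by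
  simpa using ((isLittleO_log_rpow_atTop hs).tendsto_div_nhds_zero.comp
    tendsto_natCast_atTop_atTop).const_mul C

theorem pow_lower (hp1 : 1 < p) (hp : p ≠ ∞) (hp2 : p ≠ 2) : ∃ c : ℝ, 0 < c ∧ ∀ α : ℝ, 0 < α →
    ∀ᶠ n : ℕ in atTop, c * (n : ℝ) ^ min 2 (1 + α / (12 * p.toReal ^ 2)) ≤
      dimU.{u} p n (1 + (n : ℝ) ^ (-α)) := by
  obtain ⟨C, c, hC, hc, H⟩ := poly_lower.{u} hp1 hp hp2
  have hm : 1 ≤ min p.toReal 2 := le_min (one_lt_toReal hp1 hp).le (by norm_num)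
  refine ⟨c / 2, by positivity, fun α hα => ?_⟩
  filter_upwards [ev_pow hα.le, (log_div_zero (s := α * (1 / min p.toReal 2)) (by positivity)
    C).eventually (gt_mem_nhds (show (0 : ℝ) < 1 / 2 by norm_num))] with n ⟨h1, h2, h3, h4⟩ h5
  have hn : (0 : ℝ) < n := by linarith
  have h6 := H n h1 _ h3 h4
  rw [← Real.rpow_mul hn.le, ← Real.rpow_mul hn.le, neg_mul_neg, neg_mul, Real.rpow_neg hn.le,
    mul_assoc C, inv_mul_eq_div] at h6
  refine le_trans ?_ h6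
  have h7 : (n : ℝ) ^ min 2 (1 + α / (12 * p.toReal ^ 2)) ≤
      n * min (n : ℝ) ((n : ℝ) ^ (α * (1 / (12 * p.toReal ^ 2)))) := by
    rw [mul_min_of_nonneg _ _ hn.le]
    refine le_min ((Real.rpow_le_rpow_of_exponent_le h2 (min_le_left _ _)).trans_eq ?_)
      ((Real.rpow_le_rpow_of_exponent_le h2 (min_le_right _ _)).trans_eq ?_)
    · rw [Real.rpow_two, sq]
    · rw [Real.rpow_add hn, Real.rpow_one, mul_one_div]
  have h8 : 0 ≤ c * n * min (n : ℝ) ((n : ℝ) ^ (α * (1 / (12 * p.toReal ^ 2)))) := by positivity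
  have h9 := mul_le_mul_of_nonneg_left (show 1 / 2 ≤ 1 - C *
    (Real.log n / (n : ℝ) ^ (α * (1 / min p.toReal 2))) by linarith) h8
  have h10 := mul_le_mul_of_nonneg_left h7 hc.le
  linarith

theorem pow_upper (hp : p ≠ ∞) {α : ℝ} (hα : 0 < α) (hα2 : α < 1 / 2) :
    (fun n : ℕ => (dimU.{u} p n (1 + (n : ℝ) ^ (-α)) : ℝ)) =o[atTop] fun n : ℕ => (n : ℝ) ^ 2 := by
  obtain ⟨C, hC, H⟩ := dimU_le.{u} hp
  refine IsLittleO.of_bound fun c hc => ?_
  filter_upwards [ev_pow hα.le, (log_div_zero (s := 1 - 2 * α) (by linarith)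
    C).eventually (gt_mem_nhds hc)] with n ⟨h1, h2, h3, h4⟩ h5
  have hn : (0 : ℝ) < n := by linarith
  rw [Real.norm_natCast, Real.norm_of_nonneg (by positivity)]
  refine (H n h1 _ h3 h4).trans (le_trans (le_of_eq ?_)
    (mul_le_mul_of_nonneg_right h5.le (by positivity)))
  rw [Real.rpow_sub hn, Real.rpow_one, Real.rpow_neg hn.le, mul_comm 2 α, Real.rpow_mul hn.le,
    Real.rpow_two]
  have : 0 < (n : ℝ) ^ α := by positivity
  field_simp

end Vale.Agent.N249X
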