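import Mathlib.Topology.MetricSpace.Pseudo.Defs
import Mathlib.Analysis.SpecialFunctions.Pow.Real
import Mathlib.Algebra.Order.BigOperators.Group.Finset
import Mathlib.Algebra.BigOperators.Field
import Mathlib.Data.Finset.Max
import Mathlib.Tactic

/-!
# N249X: an energy of total weight `O(n)` which controls the Lipschitz constant on `n` points
-/

open scoped BigOperators

namespace Vale.Agent.N249X

theorem exists_nearest {E : Type*} (X : Finset E) (h : E → ℝ) (M : ℕ) :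
    ∃ N ⊆ X, N.card = min M X.card ∧ ∀ b ∈ N, ∀ c ∈ X, c ∉ N → h b ≤ h c := by
  classical
  induction M with
  | zero => exact ⟨∅, by simp, by simp, by simp⟩
  | succ M ih =>
    obtain ⟨N, h1, h2, h3⟩ := ih
    rcases (X \ N).eq_empty_or_nonempty with h4 | h4
    · have h5 := Finset.sdiff_eq_empty_iff_subset.1 h4
      have := Finset.card_le_card h5
      exact ⟨N, h1, by omega, h3⟩
    · obtain ⟨c₀, h5, h6⟩ := Finset.exists_min_image _ h h4
      obtain ⟨h7, h8⟩ := Finset.mem_sdiff.1 h5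
      have h9 := Finset.card_le_card (Finset.insert_subset h7 h1)
      rw [Finset.card_insert_of_notMem h8] at h9
      refine ⟨insert c₀ N, Finset.insert_subset h7 h1,
        by rw [Finset.card_insert_of_notMem h8]; omega, fun b hb c hc hc' => ?_⟩
      have h10 : c ∉ N := fun h => hc' (Finset.mem_insert_of_mem h)
      rcases Finset.mem_insert.1 hb with rfl | hb
      · exact h6 c (Finset.mem_sdiff.2 ⟨hc, h10⟩)
      · exact h3 b hb c hc h10

theorem exists_two {E : Type*} {S : Finset E} (hS : S.Nonempty) (s t : E → ℝ) (hs : ∀ b, 0 ≤ s b)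
    (ht : ∀ b, 0 ≤ t b) {A B W : ℝ} (hA : 0 < A) (hB : 0 < B)
    (h1 : ∑ b ∈ S, s b ≤ S.card * (A * W)) (h2 : ∑ b ∈ S, t b ≤ S.card * (B * W)) :
    ∃ b ∈ S, s b ≤ 2 * A * W ∧ t b ≤ 2 * B * W := by
  obtain ⟨b, hb, h3⟩ := Finset.exists_le_of_sum_le (f := fun b => B * s b + A * t b)
    (g := fun _ => 2 * A * B * W) hS (by
      rw [Finset.sum_add_distrib, ← Finset.mul_sum, ← Finset.mul_sum, Finset.sum_const,
        nsmul_eq_mul]
      have := mul_le_mul_of_nonneg_left h1 hB.le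
      have := mul_le_mul_of_nonneg_left h2 hA.le
      linarith)
  have h4 := mul_nonneg hB.le (hs b)
  have h5 := mul_nonneg hA.le (ht b)
  exact ⟨b, hb, le_of_mul_le_mul_left (by linarith) hB, le_of_mul_le_mul_left (by linarith) hA⟩

theorem num_le {P Λ c L : ℝ} (hP : 1 ≤ P) (hΛ : 2 * 10 ^ P ≤ Λ) (hc : 1 ≤ c) (hL : 0 ≤ L) (j : ℕ) :
    c * 2 ^ j / Λ ^ j * L ^ P ≤ (c * L / 10 ^ j) ^ P := by
  have h0 : (0 : ℝ) < 10 ^ P := by positivity
  have h1 : c ≤ c ^ P := by
    conv_lhs => rw [← Real.rpow_one c]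
    exact Real.rpow_le_rpow_of_exponent_le hc hP
  have h2 : (2 * 10 ^ P) ^ j ≤ Λ ^ j := pow_le_pow_left₀ (by positivity) hΛ j
  rw [Real.div_rpow (by positivity) (by positivity), Real.mul_rpow (by positivity) hL,
    ← Real.rpow_natCast 10 j, ← Real.rpow_mul (by norm_num), mul_comm (j : ℝ),
    Real.rpow_mul (by norm_num), Real.rpow_natCast]
  calc c * 2 ^ j / Λ ^ j * L ^ P ≤ c ^ P * 2 ^ j / (2 * 10 ^ P) ^ j * L ^ P := by gcongr
    _ = _ := by
        rw [mul_pow]
        field_simp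

variable {E : Type*} [PseudoMetricSpace E]

open Classical in
/-- the closed ball in the finite set `X` -/
noncomputable def ball (X : Finset E) (a : E) (r : ℝ) : Finset E := X.filter fun b => dist a b ≤ r

theorem mem_ball {X : Finset E} {a b : E} {r : ℝ} : b ∈ ball X a r ↔ b ∈ X ∧ dist a b ≤ r := by
  simp [ball]

theorem ball_subset (X : Finset E) {a a' : E} {r r' : ℝ} (h : dist a' a + r ≤ r') :
    ball X a r ⊆ ball X a' r' := fun b hb => mem_ball.2 ⟨(mem_ball.1 hb).1, by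
  have := dist_triangle a' a b
  have := (mem_ball.1 hb).2
  linarith⟩

/-- `N` consists of `M` points of `X` nearest to `a` -/
def Near (X : Finset E) (a : E) (M : ℕ) (N : Finset E) : Prop :=
  N ⊆ X ∧ N.card ≤ M ∧ ∀ r : ℝ, ((ball X a r).card ≤ M → ball X a r ⊆ N) ∧
    (M ≤ (ball X a r).card → N.card = M ∧ N ⊆ ball X a r)

theorem exists_near (X : Finset E) (a : E) (M : ℕ) : ∃ N, Near X a M N := by
  classical
  obtain ⟨N, h1, h2, h3⟩ := exists_nearest X (fun b => dist a b) M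
  refine ⟨N, h1, by omega, fun r => ?_⟩
  have h4 : (ball X a r).card ≤ X.card := Finset.card_le_card fun b hb => (mem_ball.1 hb).1
  refine ⟨fun h c hc => ?_, fun h => ⟨by omega, fun b hb => ?_⟩⟩
  · by_contra hc'
    have h5 : insert c N ⊆ ball X a r := Finset.insert_subset hc fun b hb =>
      mem_ball.2 ⟨h1 hb, (h3 b hb c (mem_ball.1 hc).1 hc').trans (mem_ball.1 hc).2⟩
    have h6 := Finset.card_le_card h5
    rw [Finset.card_insert_of_notMem hc'] at h6
    omega
  · by_contra hb'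
    have h5 : insert b (ball X a r) ⊆ N := Finset.insert_subset hb fun c hc => by
      by_contra hc'
      exact hb' (mem_ball.2 ⟨h1 hb, (h3 b hb c (mem_ball.1 hc).1 hc').trans (mem_ball.1 hc).2⟩)
    have h6 := Finset.card_le_card h5
    rw [Finset.card_insert_of_notMem hb'] at h6
    omega

/-- The Lipschitz constant is bounded by the energies of the graphs of nearest points. -/
theorem lip_of_energy {P : ℝ} (hP : 1 ≤ P) {Λ : ℕ} (hΛ : 2 * 10 ^ P ≤ (Λ : ℝ)) (X : Finset E)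
    (N : ℕ → E → Finset E) (hN : ∀ j a, Near X a (Λ ^ j) (N j a)) (g : E → ℝ) (f : E → E → ℝ)
    (hf0 : ∀ a b, 0 ≤ f a b)
    (hf : ∀ a b t, 0 ≤ t → f a b ≤ t ^ P → |g a - g b| ≤ t * dist a b) {L : ℝ} (hL : 0 ≤ L)
    (hE : ∀ j ≤ X.card, ∑ a ∈ X, ∑ b ∈ N j a, f a b ≤ (2 * Λ) ^ j * L ^ P) {u v : E} (hu : u ∈ X)
    (hv : v ∈ X) : |g u - g v| ≤ (224 + 48 * Λ) * L * dist u v := by
  classical
  have hΛ2 : (2 : ℝ) ≤ Λ := by
    have := Real.one_le_rpow (show (1 : ℝ) ≤ 10 by norm_num) (show 0 ≤ P by linarith)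
    linarith
  have hΛ0 : (0 : ℝ) < Λ := by linarith
  have hΛ2' : 2 ≤ Λ := by exact_mod_cast hΛ2
  obtain ⟨δ, hδ⟩ : ∃ δ, dist u v = δ := ⟨_, rfl⟩
  have hδ0 : 0 ≤ δ := hδ ▸ dist_nonneg
  have hW : 0 ≤ L ^ P := Real.rpow_nonneg hL _
  have ψ0 : ∀ j a, 0 ≤ ∑ b ∈ N j a, f a b := fun j a => Finset.sum_nonneg fun b _ => hf0 a b
  have hG : ∀ j, Λ ^ j ≤ (ball X u (5 ^ j * δ)).card → j < X.card := fun j h =>
    lt_of_lt_of_le (Nat.lt_pow_self (by omega))
      (h.trans (Finset.card_le_card fun b hb => (mem_ball.1 hb).1))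
  have hex : ∃ j, ¬ Λ ^ (j + 1) ≤ (ball X u (5 ^ (j + 1) * δ)).card :=
    ⟨X.card, fun h => by have := hG _ h; omega⟩
  have hGJ : ∀ j ≤ Nat.find hex, Λ ^ j ≤ (ball X u (5 ^ j * δ)).card := by
    intro j hj
    cases j with
    | zero => exact Finset.card_pos.2 ⟨u, mem_ball.2 ⟨hu, by simpa using hδ0⟩⟩
    | succ j => exact not_not.1 (Nat.find_min hex hj)
  have hJ := Nat.find_spec hex
  generalize Nat.find hex = J at *
  have walk : ∀ a₀ ∈ X, dist u a₀ ≤ δ → ∀ j ≤ J, ∃ a ∈ X, dist u a ≤ 2 * (5 ^ j * δ) ∧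
      ∑ b ∈ N (j + 1) a, f a b ≤ 4 * 2 ^ j * Λ * L ^ P ∧
      |g a₀ - g a| ≤ 112 * (L * δ) * (1 - 1 / 2 ^ j) := by
    intro a₀ h0 h1 j
    induction j with
    | zero =>
      refine fun _ => ⟨a₀, h0, by linarith, ?_, by simp⟩
      have b1 := (Finset.single_le_sum (f := fun a => ∑ b ∈ N 1 a, f a b) (fun a _ => ψ0 1 a)
        h0).trans (hE 1 (Finset.card_pos.2 ⟨u, hu⟩))
      have := mul_nonneg hΛ0.le hW
      simp only [pow_one, pow_zero, zero_add] at b1 ⊢
      linarith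
    | succ j ih =>
      intro hj
      obtain ⟨a, a1, a2, a3, a4⟩ := ih (by omega)
      have b0 : (0 : ℝ) ≤ 5 ^ j * δ := by positivity
      obtain ⟨b1, b2⟩ := ((hN (j + 1) a).2.2 (7 * (5 ^ j * δ))).2 ((hGJ _ hj).trans
        (Finset.card_le_card (ball_subset X (by rw [dist_comm, pow_succ]; linarith))))
      have b3 : (((N (j + 1) a).card : ℕ) : ℝ) = Λ ^ (j + 1) := by exact_mod_cast b1
      obtain ⟨b, b4, b5, b6⟩ := exists_two (S := N (j + 1) a)
        (Finset.card_pos.1 (by rw [b1]; positivity)) (f a) (fun b => ∑ c ∈ N (j + 2) b, f b c)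
        (hf0 a) (ψ0 _) (A := 4 * 2 ^ j / Λ ^ j) (B := 4 * 2 ^ j * Λ) (W := L ^ P) (by positivity)
        (by positivity) (a3.trans_eq (by rw [b3]; field_simp; ring)) (by
          refine ((Finset.sum_le_sum_of_subset_of_nonneg (hN (j + 1) a).1
            fun c _ _ => ψ0 _ c).trans (hE (j + 2) (hG _ (hGJ _ hj)))).trans_eq ?_
          rw [b3]
          ring)
      obtain ⟨b7, b8⟩ := mem_ball.1 (b2 b4)
      have b9 := hf a b (8 * L / 10 ^ j) (by positivity)
        (b5.trans ((le_of_eq (by ring)).trans (num_le hP hΛ (by norm_num) hL j)))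
      have b10 : 8 * L / 10 ^ j * dist a b ≤ 56 * (L * δ) * (1 / 2 ^ j) := by
        refine (mul_le_mul_of_nonneg_left b8 (by positivity)).trans_eq ?_
        rw [show (10 : ℝ) = 2 * 5 by norm_num, mul_pow]
        field_simp
        ring
      have b11 := dist_triangle u a b
      have b12 := abs_sub_le (g a₀) (g a) (g b)
      refine ⟨b, b7, by rw [pow_succ]; linarith, b6.trans_eq (by ring), ?_⟩
      rw [pow_succ, ← div_div]
      linarith
  obtain ⟨a, -, a2, a3, a4⟩ := walk u hu (by simpa using hδ0) J le_rfl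
  obtain ⟨a', -, a2', a3', a4'⟩ := walk v hv hδ.le J le_rfl
  have b0 : (0 : ℝ) ≤ 5 ^ J * δ := by positivity
  have b3 : (Λ : ℝ) ^ J ≤ (ball X u (5 ^ J * δ)).card := by exact_mod_cast hGJ J le_rfl
  have key : ∀ a, dist u a ≤ 2 * (5 ^ J * δ) →
      ∑ b ∈ N (J + 1) a, f a b ≤ 4 * 2 ^ J * Λ * L ^ P → ∑ b ∈ ball X u (5 ^ J * δ), f a b ≤
        (ball X u (5 ^ J * δ)).card * (4 * Λ * 2 ^ J / Λ ^ J * L ^ P) := by
    intro a h1 h2
    have c1 := ((hN (J + 1) a).2.2 (3 * (5 ^ J * δ))).1 ((Finset.card_le_card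
      (ball_subset X (by rw [pow_succ]; linarith))).trans (not_le.1 hJ).le)
    have c2 : ball X u (5 ^ J * δ) ⊆ N (J + 1) a :=
      (ball_subset X (by rw [dist_comm]; linarith)).trans c1
    refine ((Finset.sum_le_sum_of_subset_of_nonneg c2 fun b _ _ => hf0 a b).trans h2).trans ?_
    calc _ = (Λ : ℝ) ^ J * (4 * Λ * 2 ^ J / Λ ^ J * L ^ P) := by field_simp
      _ ≤ _ := by gcongr
  obtain ⟨b, b4, b5, b6⟩ := exists_two (S := ball X u (5 ^ J * δ))
    ⟨u, mem_ball.2 ⟨hu, by simpa using b0⟩⟩ (f a) (f a') (hf0 a) (hf0 a') (by positivity)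
    (by positivity) (key a a2 a3) (key a' a2' a3')
  have last : ∀ a, dist u a ≤ 2 * (5 ^ J * δ) → f a b ≤ 2 * (4 * Λ * 2 ^ J / Λ ^ J) * L ^ P →
      |g a - g b| ≤ 24 * Λ * (L * δ) := by
    intro a h1 h2
    have c1 := hf a b (8 * Λ * L / 10 ^ J) (by positivity)
      (h2.trans ((le_of_eq (by ring)).trans (num_le hP hΛ (by linarith) hL J)))
    have c2 : dist a b ≤ 3 * (5 ^ J * δ) := by
      have := dist_triangle a u b
      have := (mem_ball.1 b4).2
      rw [dist_comm] at h1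
      linarith
    refine c1.trans ((mul_le_mul_of_nonneg_left c2 (by positivity)).trans ?_)
    calc _ = 24 * Λ * (L * δ) / 2 ^ J := by
          rw [show (10 : ℝ) = 2 * 5 by norm_num, mul_pow]
          field_simp
          ring
      _ ≤ _ := div_le_self (by positivity) (one_le_pow₀ (by norm_num))
  have c1 := last a a2 b5
  have c2 := last a' a2' b6
  have c3 := abs_sub_le (g u) (g a) (g v)
  have c4 := abs_sub_le (g a) (g b) (g v)
  have c5 := abs_sub_le (g b) (g a') (g v)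
  rw [abs_sub_comm (g b) (g a'), abs_sub_comm (g a') (g v)] at c5
  have c6 : 0 ≤ L * δ * (1 / 2 ^ J) := by positivity
  rw [hδ]
  linarith

end Vale.Agent.N249X
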