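import Vale.Agent.N249.Cor

/-!
# N249X: near isometric images of the cut configuration have no large coordinate
-/

open scoped BigOperators ENNReal

namespace Vale.Agent.N249X

open Vale.Agent.P249Z Vale.Agent.N249

theorem sum_mem_mul {m : ℕ} {i j : Fin m} (hij : i < j) :
    ∑ q, 1 * (mem m i q * mem m j q) ≤ 1 := by
  classical
  have h : ∀ q : Pairs m, 1 * (mem m i q * mem m j q) ≤
      if q = (⟨(i, j), hij⟩ : Pairs m) then 1 else 0 := by
    rintro ⟨⟨a, b⟩, hab⟩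
    change a < b at hab
    unfold mem
    by_cases h1 : i = a ∨ i = b
    · by_cases h2 : j = a ∨ j = b
      · obtain ⟨rfl, rfl⟩ : a = i ∧ b = j := by omega
        simp
      · rw [if_neg h2]
        split_ifs <;> simp
    · rw [if_neg h1]
      split_ifs <;> simp
  refine (Finset.sum_le_sum fun q _ => h q).trans ?_
  simp

theorem spread {m d : ℕ} {η : ℝ} (w : Fin d → ℝ) (hw : ∀ x, 0 ≤ w x) (t : Fin m → Fin d → ℝ)
    (ht : ∀ i x, t i x = 0 ∨ t i x = 1) (h0 : ∑ x, w x ≤ ∑ _q : Pairs m, (1 : ℝ) + η)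
    (h1 : ∀ i, ∑ q, 1 * mem m i q - η ≤ ∑ x, w x * t i x)
    (h2 : ∀ i j, |∑ x, w x * (t i x * t j x) - ∑ q, 1 * (mem m i q * mem m j q)| ≤ η)
    (hη0 : 0 ≤ η) (hη : ((m : ℝ) ^ 2 + 4 * m + 5) * η < 1) (z : Fin d) : w z ≤ 2 := by
  classical
  have ht0 : ∀ i x, 0 ≤ t i x := fun i x => by rcases ht i x with h | h <;> simp [h]
  have e1 := ident w t
  have e2 := ident (fun _ => (1 : ℝ)) (mem m)
  simp only [sum_mem, sub_self] at e2
  have s1 := Finset.sum_le_sum fun i (_ : i ∈ Finset.univ) => h1 i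
  have s2 := Finset.sum_le_sum fun i (_ : i ∈ Finset.univ) =>
    Finset.sum_le_sum fun j (_ : j ∈ Finset.univ) => (abs_le.1 (h2 i j)).2
  simp only [Finset.sum_sub_distrib, Finset.sum_const, Finset.card_univ, Fintype.card_fin,
    nsmul_eq_mul] at s1 s2 e2 h0
  have hsm : ∑ x, w x * (∑ i, t i x - 2) ^ 2 ≤ ((m : ℝ) ^ 2 + 4 * m + 4) * η := by
    rw [e1]
    linarith
  have hm : 0 ≤ ((m : ℝ) ^ 2 + 4 * m) * η := by positivity
  by_cases h : ∃ i j, i < j ∧ t i z = 1 ∧ t j z = 1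
  · obtain ⟨i, j, hij, b1, b2⟩ := h
    have a1 : w z * (t i z * t j z) ≤ ∑ x, w x * (t i x * t j x) :=
      Finset.single_le_sum (f := fun x => w x * (t i x * t j x))
        (fun x _ => mul_nonneg (hw x) (mul_nonneg (ht0 i x) (ht0 j x))) (Finset.mem_univ z)
    have a2 := (abs_le.1 (h2 i j)).2
    have a3 := sum_mem_mul hij
    rw [b1, b2] at a1
    linarith
  · have a1 : ∑ i, t i z ≤ 1 := by
      by_cases h' : ∃ i, t i z = 1
      · obtain ⟨i, hi⟩ := h'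
        rw [Finset.sum_eq_single i (fun j _ hj => ?_) (by simp), hi]
        refine (ht j z).resolve_right fun hj' => h ?_
        rcases lt_or_gt_of_ne hj with h3 | h3
        · exact ⟨j, i, h3, hj', hi⟩
        · exact ⟨i, j, h3, hi, hj'⟩
      · rw [Finset.sum_eq_zero fun i _ => (ht i z).resolve_right fun hi => h' ⟨i, hi⟩]
        exact zero_le_one
    have a2 : w z * (∑ i, t i z - 2) ^ 2 ≤ ∑ x, w x * (∑ i, t i x - 2) ^ 2 :=
      Finset.single_le_sum (f := fun x => w x * (∑ i, t i x - 2) ^ 2)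
        (fun x _ => mul_nonneg (hw x) (sq_nonneg _)) (Finset.mem_univ z)
    have a3 : w z * 1 ≤ w z * (∑ i, t i z - 2) ^ 2 :=
      mul_le_mul_of_nonneg_left (by nlinarith) (hw z)
    linarith

/-- The vector `g 1 - g 0` has no large coordinate. -/
theorem flat_core {P : ℝ} (hP1 : 1 < P) (hP2 : P ≠ 2) : ∃ C : ℝ, 0 < C ∧
    ∀ (m d : ℕ) (x K : ℝ), 0 < x → x ≤ 1 → 1 ≤ K → K - 1 ≤ ((x ^ P) ^ P) ^ 3 →
      ((m : ℝ) ^ 2 + 4 * m + 5) * (C * (m.choose 2 : ℕ) * x) < 1 →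
      ∀ (X : Set (Pairs m → ℝ)) (g : (Pairs m → ℝ) → Fin d → ℝ), 0 ∈ X → 1 ∈ X → -1 ∈ X →
        (∀ i, N249.flip 1 (mem m i) ∈ X) → Good P K X g → ∀ z, |(g 1 - g 0) z| ^ P ≤ 2 := by
  obtain ⟨C, hC, hmid⟩ := A_mid hP1
  have hP0 : 0 < P := by linarith
  have hT : (1 : ℝ) ≤ 2 ^ P := Real.one_le_rpow (by norm_num) hP0.le
  have hq : 0 < |P - 2| := abs_pos.2 (sub_ne_zero.2 hP2)
  obtain ⟨c₁, hc₁, e₁⟩ : ∃ c₁ : ℝ, 0 < c₁ ∧ c₁ = 2 ^ P * (4 + 2 * C) := ⟨_, by positivity, rfl⟩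
  obtain ⟨c₂, hc₂, e₂⟩ : ∃ c₂ : ℝ, 0 < c₂ ∧
      |P - 2| * c₂ = 2 * P * (4 * 2 ^ P + c₁) + 18 * 2 ^ P :=
    ⟨(2 * P * (4 * 2 ^ P + c₁) + 18 * 2 ^ P) / |P - 2|, by positivity, by field_simp⟩
  refine ⟨2 * (2 * P * (4 * 2 ^ P + c₂) + 4 * 2 ^ P), by positivity,
    fun m d x K hx hx1 hK hκ hη X g m0 m1 m2 m3 hg => ?_⟩
  have hle : ∀ y : ℝ, 0 < y → y ≤ 1 → y ^ P ≤ y := fun y h0 h1 => by
    conv_rhs => rw [← Real.rpow_one y]
    exact Real.rpow_le_rpow_of_exponent_ge h0 h1 hP1.le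
  have hy : 0 < x ^ P := Real.rpow_pos_of_pos hx _
  have hyx := hle x hx hx1
  have hz : 0 < (x ^ P) ^ P := Real.rpow_pos_of_pos hy _
  have hzy := hle _ hy (hyx.trans hx1)
  have hz1 : (x ^ P) ^ P ≤ 1 := by linarith
  have hκz : K - 1 ≤ (x ^ P) ^ P := hκ.trans (pow_le_of_le_one hz.le hz1 (by norm_num))
  have ho : ∀ q, |(1 : Pairs m → ℝ) q| ^ P = 1 := fun q => by simp
  have hN : A P (1 : Pairs m → ℝ) = (m.choose 2 : ℕ) := by
    simp only [A, ho, Finset.sum_const, Finset.card_univ, card_pairs, nsmul_eq_mul, mul_one]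
  have hN' : ∑ _q : Pairs m, (1 : ℝ) = (m.choose 2 : ℕ) := by
    simp only [Finset.sum_const, Finset.card_univ, card_pairs, nsmul_eq_mul, mul_one]
  have hN0 : (0 : ℝ) ≤ (m.choose 2 : ℕ) := Nat.cast_nonneg _
  have hfl : ∀ i, A P (N249.flip 1 (mem m i)) = (m.choose 2 : ℕ) := fun i => by
    rw [A_flip P _ (mem01 m i), hN]
  have hneg : A P (-1 : Pairs m → ℝ) = (m.choose 2 : ℕ) := by rw [A_neg, hN]
  have h11 : A P (1 - -1 : Pairs m → ℝ) = 2 ^ P * (m.choose 2 : ℕ) := by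
    have := flip_sub hP0 (-1 : Pairs m → ℝ) (s := 1) (fun _ => Or.inr rfl)
    rw [flip_one, neg_neg] at this
    rw [this, ← hN']
    simp
  have s1 := fun i => flip_add hP0 (1 : Pairs m → ℝ) (mem01 m i)
  have s2 := fun i => flip_sub hP0 (1 : Pairs m → ℝ) (mem01 m i)
  have s3 := fun i j => inter hP0 (1 : Pairs m → ℝ) (mem01 m i) (mem01 m j)
  simp only [ho, hN] at s1 s2 s3
  generalize ((m.choose 2 : ℕ) : ℝ) = N at *
  have hκ0 : 0 ≤ K - 1 := by linarith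
  have hκN : (K - 1) * N ≤ N := mul_le_of_le_one_left hN0 (by linarith)
  have base : ∀ u ∈ X, A P u = N → N ≤ A P (g u - g 0) ∧ A P (g u - g 0) ≤ K * N := by
    intro u hu h
    have := hg u hu 0 m0
    rwa [sub_zero, h] at this
  have near : ∀ u ∈ X, ∀ v ∈ X, A P u = N → A P v = N →
      |A P (g u - g 0 - (g v - g 0)) - A P (u - v)| ≤ 4 * 2 ^ P * N * x ^ P := by
    intro u hu v hv h h'
    obtain ⟨b1, b2⟩ := hg u hu v hv
    have b3 := A_sub_le hP1 u v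
    rw [h, h'] at b3
    rw [sub_sub_sub_cancel_right, abs_of_nonneg (by linarith)]
    have b4 : (K - 1) * A P (u - v) ≤ x ^ P * (2 ^ P * (N + N)) :=
      mul_le_mul (hκz.trans hzy) b3 (A_nonneg _ _) hy.le
    have b5 : 0 ≤ 2 ^ P * N * x ^ P := by positivity
    linarith
  have big : ∀ u v : Fin d → ℝ, A P u ≤ K * N → A P v ≤ K * N → A P (u - v) ≤ 4 * 2 ^ P * N := by
    intro u v h h'
    have := mul_le_mul_of_nonneg_left (show A P u + A P v ≤ 4 * N by linarith)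
      (show (0 : ℝ) ≤ 2 ^ P by linarith)
    have := A_sub_le hP1 u v
    linarith
  obtain ⟨c0, c1⟩ := base 1 m1 hN
  obtain ⟨-, b1⟩ := base (-1) m2 hneg
  have a0 := fun i => base _ (m3 i) (hfl i)
  have cb := (hg 1 m1 (-1) m2).1
  rw [h11, ← sub_sub_sub_cancel_right (g 1) (g (-1)) (g 0)] at cb
  have n1 := fun i => near _ (m3 i) _ m1 (hfl i) hN
  have n2 := fun i => near _ (m3 i) _ m2 (hfl i) hneg
  have n3 := fun i j => near _ (m3 i) _ (m3 j) (hfl i) (hfl j)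
  simp only [sub_neg_eq_add] at n2
  generalize g 1 - g 0 = c at *
  generalize g (-1) - g 0 = b at *
  obtain ⟨a, ha⟩ : ∃ a : Fin m → Fin d → ℝ, ∀ i, g (N249.flip 1 (mem m i)) - g 0 = a i := ⟨_, fun _ => rfl⟩
  simp only [ha] at a0 n1 n2 n3
  have E1 : A P (c + b) ≤ c₁ * N * (x ^ P) ^ P := by
    have f1 := hmid _ hz hz1 _ c b
    generalize (x ^ P) ^ P = z at *
    have f2 : z * (2 ^ P * (A P c + A P b)) ≤ z * (2 ^ P * (4 * N)) := by
      gcongr
      linarith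
    have f3 : 2 ^ P * (A P c + A P b) ≤ 2 ^ P * (2 * (K * N)) := by
      gcongr
      linarith
    have f4 : 2 ^ P * ((K - 1) * N) ≤ 2 ^ P * (z ^ 3 * N) := by gcongr
    have f5 : C / z ^ 2 * (2 ^ P * (A P c + A P b) - 2 * A P (c - b)) ≤
        C / z ^ 2 * (2 * (2 ^ P * (z ^ 3 * N))) :=
      mul_le_mul_of_nonneg_left (by linarith) (by positivity)
    have f6 : C / z ^ 2 * (2 * (2 ^ P * (z ^ 3 * N))) = 2 * C * 2 ^ P * N * z := by field_simp
    rw [e₁]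
    linarith
  have E2 : ∀ i, ∃ t : Fin d → ℝ, (∀ x, t x = 0 ∨ t x = 1) ∧
      A P (N249.flip c t - a i) ≤ c₂ * N * x ^ P := by
    intro i
    obtain ⟨t, ht, f1⟩ := round hP1 hP2 (a i) c
    refine ⟨t, ht, le_of_mul_le_mul_left ?_ hq⟩
    have f2 : |A P (a i + c) - A P (a i - b)| ≤ P * (4 * 2 ^ P * N + c₁ * N) * x ^ P := by
      refine A_close hP1 hy ?_ (big _ _ (a0 i).2 b1) ?_
      · rw [← sub_neg_eq_add]
        exact big _ _ (a0 i).2 (by rwa [A_neg])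
      · rwa [add_sub_sub_cancel]
    obtain ⟨f3, f4⟩ := abs_le.1 (abs_tri f2 (n2 i))
    obtain ⟨f5, f6⟩ := abs_le.1 (n1 i)
    obtain ⟨f7, f8⟩ := a0 i
    have f9 : (K - 1) * N ≤ x ^ P * N := mul_le_mul_of_nonneg_right (hκz.trans hzy) hN0
    have g1 : 2 ^ P * (N + N) ≤ 2 ^ P * (A P (a i) + A P c) := by gcongr
    have g2 : 2 ^ P * (A P (a i) + A P c) ≤ 2 ^ P * (2 * N + 2 * (x ^ P * N)) :=
      mul_le_mul_of_nonneg_left (by linarith) (by linarith)
    have g3 : 0 ≤ 2 ^ P * N * x ^ P := by positivity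
    have g4 := s1 i
    rw [A_comm, mul_assoc, ← mul_assoc, e₂]
    refine f1.trans (abs_le.2 ⟨?_, ?_⟩) <;> linarith
  choose t ht E2 using E2
  have hft : ∀ i, A P (N249.flip c (t i)) ≤ K * N := fun i => by rwa [A_flip P _ (ht i)]
  have w1 : 4 * 2 ^ P * N * x ^ P ≤ 4 * 2 ^ P * N * x := by gcongr
  have w0 : 0 ≤ P * (4 * 2 ^ P * N + c₂ * N) * x := by positivity
  have w2 : N * x ≤ 2 ^ P * (N * x) := le_mul_of_one_le_left (by positivity) hT
  obtain ⟨η, hηe⟩ : ∃ η, η = (2 * P * (4 * 2 ^ P + c₂) + 4 * 2 ^ P) * N * x := ⟨_, rfl⟩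
  have hη0 : 0 ≤ η := by
    rw [hηe]
    positivity
  have w3 : η ≤ 2 ^ P * η := le_mul_of_one_le_left hη0 hT
  have E3 : ∀ i, |A P (N249.flip c (t i) - c) - A P (N249.flip 1 (mem m i) - 1)| ≤ η := by
    intro i
    have f1 := A_close hP1 hx (big _ _ (hft i) c1) (big _ _ (a0 i).2 c1)
      (by rw [sub_sub_sub_cancel_right]; exact E2 i)
    have := abs_tri f1 (n1 i)
    linarith
  have E4 : ∀ i j, |A P (N249.flip c (t i) - N249.flip c (t j)) -
      A P (N249.flip 1 (mem m i) - N249.flip 1 (mem m j))| ≤ η := by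
    intro i j
    have f1 := A_close hP1 hx (big _ _ (hft i) (a0 j).2) (big _ _ (a0 i).2 (a0 j).2)
      (by rw [sub_sub_sub_cancel_right]; exact E2 i)
    have f2 := A_close hP1 hx (big _ _ (hft i) (hft j)) (big _ _ (hft i) (a0 j).2)
      (by rw [sub_sub_sub_cancel_left, A_comm]; exact E2 j)
    have := abs_tri f2 (abs_tri f1 (n3 i j))
    linarith
  refine spread (η := 2 * η) (fun x => |c x| ^ P) (fun x => by positivity) t ht ?_ (fun i => ?_)
    (fun i j => ?_) (by linarith) (by rw [hηe]; linarith)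
  · have f9 : (K - 1) * N ≤ x * N := mul_le_mul_of_nonneg_right (by linarith) hN0
    have : ∑ x, |c x| ^ P = A P c := rfl
    rw [hN', this]
    have : 0 ≤ N * x := by positivity
    linarith
  · refine le_of_mul_le_mul_left ?_ (show (0 : ℝ) < 2 ^ P by linarith)
    have f1 := (abs_le.1 (E3 i)).1
    rw [flip_sub hP0 c (ht i), s2 i] at f1
    linarith
  · refine le_of_mul_le_mul_left ?_ (show (0 : ℝ) < 2 ^ P * 2 by linarith)
    rw [← abs_of_pos (show (0 : ℝ) < 2 ^ P * 2 by linarith), ← abs_mul,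
      abs_of_pos (show (0 : ℝ) < 2 ^ P * 2 by linarith), mul_sub, mul_assoc, mul_assoc, s3,
      inter hP0 c (ht i) (ht j)]
    obtain ⟨f1, f2⟩ := abs_le.1 (E3 i)
    obtain ⟨f3, f4⟩ := abs_le.1 (E3 j)
    obtain ⟨f5, f6⟩ := abs_le.1 (E4 i j)
    refine abs_le.2 ⟨?_, ?_⟩ <;> linarith

/-- An edge `h 1_S`, `|S| = N`, together with `r` more points, is mapped to a vector without large
coordinates. -/
def Leaf (P K τ : ℝ) (N r : ℕ) (J : Type) [Fintype J] [DecidableEq J] : Prop :=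
  ∀ (u : J → ℝ) (h : ℝ) (S : Finset J), 0 < h → S.card = N →
    ∃ Z : Finset (J → ℝ), Z.card ≤ r ∧
      ∀ (d : ℕ) (g : (J → ℝ) → Fin d → ℝ), Good P K ({u, u + ind S h} ∪ (Z : Set (J → ℝ))) g →
        ∀ z, |(g (u + ind S h) - g u) z| ^ P ≤ τ * h ^ P

theorem leaf_one {P K τ : ℝ} (hP : 0 < P) (hK : K ≤ τ) (J : Type) [Fintype J] [DecidableEq J] :
    Leaf P K τ 1 0 J := by
  refine fun u h S hh hS => ⟨∅, by simp, fun d g hg z => ?_⟩
  have h1 := (hg (u + ind S h) (by simp) u (by simp)).2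
  rw [A_edge hP hh, hS, Nat.cast_one, mul_one] at h1
  exact ((le_A P _ z).trans h1).trans (mul_le_mul_of_nonneg_right hK (Real.rpow_nonneg hh.le _))

theorem A_smul (P c : ℝ) (hc : 0 ≤ c) {J : Type} [Fintype J] (w : J → ℝ) :
    A P (c • w) = c ^ P * A P w := by
  rw [A, A, Finset.mul_sum]
  refine Finset.sum_congr rfl fun j _ => ?_
  rw [Pi.smul_apply, smul_eq_mul, abs_mul, abs_of_nonneg hc, Real.mul_rpow hc (abs_nonneg _)]

theorem leaf {P : ℝ} (hP1 : 1 < P) (hP2 : P ≠ 2) : ∃ C : ℝ, 0 < C ∧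
    ∀ (m : ℕ) (x K : ℝ), 0 < x → x ≤ 1 → 1 ≤ K → K - 1 ≤ ((x ^ P) ^ P) ^ 3 →
      ((m : ℝ) ^ 2 + 4 * m + 5) * (C * (m.choose 2 : ℕ) * x) < 1 →
      ∀ (J : Type) [Fintype J] [DecidableEq J], Leaf P K 2 (m.choose 2) (m + 1) J := by
  classical
  obtain ⟨C, hC, H⟩ := flat_core hP1 hP2
  have hP0 : 0 < P := by linarith
  refine ⟨C, hC, fun m x K hx hx1 hK hκ hη J _ _ u h S hh hS => ?_⟩
  obtain ⟨e⟩ : Nonempty (S ≃ Pairs m) :=
    Fintype.card_eq.1 (by rw [Fintype.card_coe, hS, card_pairs])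
  set ι : (Pairs m → ℝ) → J → ℝ :=
    fun v => u + fun j => if hj : j ∈ S then h * v (e ⟨j, hj⟩) else 0 with hι
  have i0 : ι 0 = u := by
    funext j
    simp [hι]
  have i1 : ι 1 = u + ind S h := by
    funext j
    simp [hι, ind]
  have iA : ∀ v v', A P (ι v - ι v') = h ^ P * A P (v - v') := by
    intro v v'
    rw [A, A, Finset.mul_sum, ← Equiv.sum_comp e,
      ← Finset.sum_subset (Finset.subset_univ S) fun j _ hj => by simp [hι, hj, hP0.ne'],
      ← Finset.sum_coe_sort S]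
    refine Finset.sum_congr rfl fun j _ => ?_
    rw [← Real.mul_rpow hh.le (abs_nonneg _), ← abs_of_pos hh, ← abs_mul]
    congr 2
    simp [hι, j.2, mul_sub]
  refine ⟨insert (ι (-1)) (Finset.univ.image fun i => ι (N249.flip 1 (mem m i))), ?_,
    fun d g hg z => ?_⟩
  · refine (Finset.card_insert_le _ _).trans (Nat.add_le_add_right ?_ 1)
    exact Finset.card_image_le.trans (by simp)
  have hhP : 0 < h ^ P := Real.rpow_pos_of_pos hh _
  have hinv : h⁻¹ ^ P * h ^ P = 1 := by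
    rw [Real.inv_rpow hh.le, inv_mul_cancel₀ hhP.ne']
  have H1 := H m d x K hx hx1 hK hκ hη (ι ⁻¹' ({u, u + ind S h} ∪ ((insert (ι (-1))
    (Finset.univ.image fun i => ι (N249.flip 1 (mem m i))) : Finset (J → ℝ)) : Set (J → ℝ))))
    (fun v => h⁻¹ • g (ι v)) (by simp [i0]) (by simp [i1]) (by simp) (fun i => by simp) (by
      intro v hv v' hv'
      obtain ⟨b1, b2⟩ := hg _ hv _ hv'
      rw [iA] at b1 b2
      have b3 := mul_le_mul_of_nonneg_left b1 (Real.rpow_nonneg (inv_pos.2 hh).le P)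
      have b4 := mul_le_mul_of_nonneg_left b2 (Real.rpow_nonneg (inv_pos.2 hh).le P)
      rw [← mul_assoc, hinv, one_mul] at b3
      rw [mul_left_comm, ← mul_assoc (h⁻¹ ^ P), hinv, one_mul] at b4
      simp only [← smul_sub, A_smul P _ (inv_pos.2 hh).le]
      exact ⟨b3, b4⟩)
  simp only [i0, i1, ← smul_sub] at H1
  have b1 := mul_le_mul_of_nonneg_right (H1 z) hhP.le
  rwa [Pi.smul_apply, smul_eq_mul, abs_mul, abs_of_pos (inv_pos.2 hh),
    Real.mul_rpow (inv_pos.2 hh).le (abs_nonneg _), mul_right_comm, hinv, one_mul] at b1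

end Vale.Agent.N249X
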