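import Vale.Agent.N249X.Flat

/-!
# N249X: the lower bound `n min (n, ε ^ (-b))` for `d_p(n, 1 + ε)`
-/

open scoped BigOperators ENNReal

universe u

namespace Vale.Agent.N249X

open Vale.Agent.P249Z Vale.Agent.N249

/-- the part of the mass of `w` above the level `τ` -/
noncomputable def heavy (P τ : ℝ) {d : ℕ} (w : Fin d → ℝ) : ℝ := ∑ i, max (|w i| ^ P - τ) 0

theorem A_le_heavy (P τ : ℝ) {d : ℕ} (w : Fin d → ℝ) : A P w ≤ heavy P τ w + d * τ := by
  have h : ∀ i, |w i| ^ P ≤ max (|w i| ^ P - τ) 0 + τ := fun i => by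
    have := le_max_left (|w i| ^ P - τ) 0
    linarith
  refine (Finset.sum_le_sum fun i _ => h i).trans_eq ?_
  simp [heavy, Finset.sum_add_distrib]

theorem ptw_heavy {P t x y R τ : ℝ} (hP : 1 ≤ P) (ht : 0 ≤ t) (hx : 0 ≤ x) (hR : 0 ≤ R)
    (h : t ^ (P - 1) * (t - max x y) ≤ R) :
    max (t ^ P - τ) 0 ≤ max (x ^ P - τ) 0 + max (y ^ P - τ) 0 + P * R := by
  have h1 := pow_sub_le (le_max_of_le_left hx : 0 ≤ max x y) ht hP
  have h2 := mul_le_mul_of_nonneg_left h (by linarith : 0 ≤ P)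
  have h3 := le_max_left (x ^ P - τ) 0
  have h4 := le_max_right (x ^ P - τ) 0
  have h5 := le_max_left (y ^ P - τ) 0
  have h6 := le_max_right (y ^ P - τ) 0
  have h7 : 0 ≤ P * R := by positivity
  refine max_le ?_ (by linarith)
  rcases le_total x y with h8 | h8
  · rw [max_eq_right h8] at h1 h2
    linarith
  · rw [max_eq_left h8] at h1 h2
    linarith

theorem tree_leaf {P c l G K τ : ℝ} {N r : ℕ} (hP : 1 ≤ P) (hc : 0 < c) (hl : 0 ≤ l)
    (hG : 0 ≤ G) (hK : 1 ≤ K) (hs : Step P c l G) (hN : 0 < N) (J : Type) [Fintype J]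
    [DecidableEq J] (hleaf : Leaf P K τ N r J) (k : ℕ) :
    ∀ (u : J → ℝ) (h : ℝ) (S : Finset J), 0 < h → S.card = N * 2 ^ k →
      ∃ Z : Finset (J → ℝ), Z.card + 2 ≤ (r + 2) * 2 ^ k ∧
        ∀ (d : ℕ) (g : (J → ℝ) → Fin d → ℝ), Good P K ({u, u + ind S h} ∪ (Z : Set (J → ℝ))) g →
          heavy P (τ * h ^ P) (g (u + ind S h) - g u) ≤
            h ^ P * (N * 2 ^ k) * (k * (P * (l * K + 2 * G * (K - 1)))) := by
  classical
  have hP0 : 0 < P := by linarith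
  have hN0 : (0 : ℝ) < N := by exact_mod_cast hN
  induction k with
  | zero =>
    intro u h S hh hS
    obtain ⟨Z, hZ, H⟩ := hleaf u h S hh (by simpa using hS)
    refine ⟨Z, by simpa using hZ, fun d g hg => le_of_eq ?_⟩
    rw [Nat.cast_zero, zero_mul, mul_zero]
    exact Finset.sum_eq_zero fun i _ => max_eq_right (sub_nonpos.2 (H d g hg i))
  | succ k ih =>
    intro u h S hh hS
    obtain ⟨S₁, hS₁, hc₁⟩ := Finset.exists_subset_card_eq (s := S) (n := N * 2 ^ k)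
      (by rw [hS, pow_succ, ← mul_assoc]; omega)
    have hc₂ : (S \ S₁).card = N * 2 ^ k := by
      rw [Finset.card_sdiff_of_subset hS₁, hS, hc₁, pow_succ, ← mul_assoc]
      omega
    have hU : S₁ ∪ (S \ S₁) = S := Finset.union_sdiff_of_subset hS₁
    obtain ⟨a, b, u₁, u₂, m₁, m₂, m₃, m₄, H⟩ := hs J u h S₁ (S \ S₁) hh Finset.disjoint_sdiff
      (by rw [hc₁, hc₂])
    rw [hU] at m₁ m₂ m₃ m₄ H
    have hch : 0 < c * h := mul_pos hc hh
    obtain ⟨Z₁, hZ₁, H₁⟩ := ih u₁ (c * h) S₁ hch hc₁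
    obtain ⟨Z₂, hZ₂, H₂⟩ := ih u₂ (c * h) (S \ S₁) hch hc₂
    refine ⟨insert a (insert b (Z₁ ∪ Z₂)), ?_, fun d g hg => ?_⟩
    · have h1 := Finset.card_insert_le a (insert b (Z₁ ∪ Z₂))
      have h2 := Finset.card_insert_le b (Z₁ ∪ Z₂)
      have h3 := Finset.card_union_le Z₁ Z₂
      rw [pow_succ, ← mul_assoc]
      omega
    have hsub : ∀ x ∈ ({u, u + ind S h, a, b} : Set (J → ℝ)),
        x ∈ ({u, u + ind S h} ∪ ((insert a (insert b (Z₁ ∪ Z₂)) : Finset (J → ℝ)) :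
          Set (J → ℝ))) := by
      rintro x (rfl | rfl | rfl | rfl) <;> simp
    have hg₁ : Good P K ({u₁, u₁ + ind S₁ (c * h)} ∪ (Z₁ : Set (J → ℝ))) g := by
      have : ∀ x ∈ ({u₁, u₁ + ind S₁ (c * h)} ∪ (Z₁ : Set (J → ℝ))),
          x ∈ ({u, u + ind S h} ∪ ((insert a (insert b (Z₁ ∪ Z₂)) : Finset (J → ℝ)) :
            Set (J → ℝ))) := by
        rintro x ((rfl | rfl) | hx)
        · exact hsub _ m₁
        · exact hsub _ m₂
        · simp [Finset.mem_coe.1 hx]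
      exact fun x hx y hy => hg x (this x hx) y (this y hy)
    have hg₂ : Good P K ({u₂, u₂ + ind (S \ S₁) (c * h)} ∪ (Z₂ : Set (J → ℝ))) g := by
      have : ∀ x ∈ ({u₂, u₂ + ind (S \ S₁) (c * h)} ∪ (Z₂ : Set (J → ℝ))),
          x ∈ ({u, u + ind S h} ∪ ((insert a (insert b (Z₁ ∪ Z₂)) : Finset (J → ℝ)) :
            Set (J → ℝ))) := by
        rintro x ((rfl | rfl) | hx)
        · exact hsub _ m₃
        · exact hsub _ m₄
        · simp [Finset.mem_coe.1 hx]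
      exact fun x hx y hy => hg x (this x hx) y (this y hy)
    obtain ⟨σ, hσ0, hσ, hpt⟩ := H d g K (fun x hx y hy => hg x (hsub x hx) y (hsub y hy)) hK
    have b₁ := H₁ d g hg₁
    have b₂ := H₂ d g hg₂
    have h1 := (hg (u + ind S h) (by simp) u (by simp)).2
    rw [A_edge hP0 hh, hS] at h1
    rw [hc₁] at hσ
    push_cast at h1 hσ
    set L : ℝ := (c * h) ^ P * (N * 2 ^ k) with hL
    have hL0 : 0 < L := by positivity
    have hcP : 0 < c ^ P := Real.rpow_pos_of_pos hc _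
    have hLL : c ^ P * (h ^ P * (N * 2 ^ (k + 1))) = 2 * L := by
      rw [hL, Real.mul_rpow hc.le hh.le]
      ring
    set w := g (u + ind S h) - g u with hw
    have hsum : ∀ s : ℝ, ∑ i, (c * |g (u + ind S h) i - g u i|) ^ s = c ^ s * A s w := by
      intro s
      rw [A, Finset.mul_sum]
      exact Finset.sum_congr rfl fun i _ => Real.mul_rpow hc.le (abs_nonneg _)
    have hUU : c ^ P * A P w ≤ 2 * K * L := by
      have := mul_le_mul_of_nonneg_left h1 hcP.le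
      calc c ^ P * A P w ≤ K * (c ^ P * (h ^ P * (N * 2 ^ (k + 1)))) := by linarith
        _ = 2 * K * L := by rw [hLL]; ring
    have hp2 : ∀ i, c ^ P * max (|w i| ^ P - τ * h ^ P) 0 ≤
        max (|g (u₁ + ind S₁ (c * h)) i - g u₁ i| ^ P - τ * (c * h) ^ P) 0 +
          max (|g (u₂ + ind (S \ S₁) (c * h)) i - g u₂ i| ^ P - τ * (c * h) ^ P) 0 +
          P * (l * (c * |g (u + ind S h) i - g u i|) ^ P + G * σ i) := by
      intro i
      have := hσ0 i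
      refine le_trans (le_of_eq ?_) (ptw_heavy hP (by positivity) (abs_nonneg _) (by positivity)
        (hpt i))
      rw [mul_max_of_nonneg _ _ hcP.le, mul_zero, Real.mul_rpow hc.le (abs_nonneg _),
        Real.mul_rpow hc.le hh.le, mul_sub, mul_left_comm]
      rfl
    have hp3 := Finset.sum_le_sum fun i (_ : i ∈ Finset.univ) => hp2 i
    simp only [Finset.sum_add_distrib, ← Finset.mul_sum, hsum] at hp3
    have hp4 : l * (c ^ P * A P w) + G * ∑ i, σ i ≤ 2 * L * (l * K + 2 * G * (K - 1)) := by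
      have := mul_le_mul_of_nonneg_left hUU hl
      have := mul_le_mul_of_nonneg_left hσ hG
      linarith
    have hp5 := mul_le_mul_of_nonneg_left hp4 hP0.le
    refine le_of_mul_le_mul_left ?_ hcP
    rw [← mul_assoc]
    push_cast
    rw [hLL]
    have hp6 := hp3.trans (add_le_add (add_le_add b₁ b₂) hp5)
    exact hp6.trans_eq (by ring)

variable {p : ℝ≥0∞} [Fact (1 ≤ p)]

theorem master_leaf (hp1 : 1 < p) (hp : p ≠ ∞) (hp2 : p ≠ 2) : ∃ C : ℝ, 0 < C ∧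
    ∀ (n k N r : ℕ) (τ ε : ℝ), 0 < N → (r + 2) * 2 ^ k ≤ n → 0 < ε → ε ≤ 1 →
      Leaf p.toReal ((1 + ε) ^ p.toReal) τ N r (Fin (N * 2 ^ k)) →
        (N * 2 ^ k : ℝ) * (1 - C * ε ^ (1 / min p.toReal 2) * k) ≤ dimU.{u} p n (1 + ε) * τ := by
  classical
  have hP1 := one_lt_toReal hp1 hp
  obtain ⟨c, G, hc, hG, hs⟩ := exists_step hP1 (toReal_ne_two hp hp2)
  have hm : 1 ≤ min p.toReal 2 := le_min hP1.le (by norm_num)
  have hgood := fun n ε (hε : 0 < ε) => good_dimU.{u} hp (n := n) (D := 1 + ε) (by linarith)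
  generalize min p.toReal 2 = μ at *
  generalize p.toReal = P at *
  refine ⟨P * (2 ^ P + 2 * G * (P * 2 ^ P)), by positivity,
    fun n k N r τ ε hN hn hε hε1 hleaf => ?_⟩
  have hl : 0 < ε ^ (1 / μ) := Real.rpow_pos_of_pos hε _
  have hlm : (ε ^ (1 / μ)) ^ (1 - μ) * ε = ε ^ (1 / μ) := by
    rw [← Real.rpow_mul hε.le, ← Real.rpow_add_one hε.ne']
    congr 1
    field_simp
    ring
  obtain ⟨hK1, hK2, hK3⟩ := pow_one_add hP1.le hε.le hε1
  have hlG : 0 ≤ (ε ^ (1 / μ)) ^ (1 - μ) := Real.rpow_nonneg hl.le _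
  have : Nonempty (Fin (N * 2 ^ k)) := ⟨⟨0, by positivity⟩⟩
  obtain ⟨Z, hZ, H⟩ := tree_leaf hP1.le hc hl.le (by positivity) hK1 (hs _ hl) hN _ hleaf k 0 1
    Finset.univ one_pos (by simp)
  obtain ⟨g, hg⟩ := hgood n ε hε (Fin (N * 2 ^ k))
    (insert 0 (insert (0 + ind Finset.univ 1) Z)) (by
    have h1 := Finset.card_insert_le 0 (insert (0 + ind Finset.univ 1) Z)
    have h2 := Finset.card_insert_le (0 + ind Finset.univ 1) Z
    omega)
  have H1 := H _ g (by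
    simpa only [Finset.coe_insert, Set.insert_union, Set.singleton_union] using hg)
  have H2 := (hg (0 + ind Finset.univ 1) (by simp) 0 (by simp)).1
  rw [A_edge (by linarith) one_pos] at H2
  have H3 := A_le_heavy P (τ * 1 ^ P) (g (0 + ind Finset.univ 1) - g 0)
  simp only [Finset.card_univ, Fintype.card_fin, Nat.cast_pow, Nat.cast_ofNat, Nat.cast_mul,
    Real.one_rpow, one_mul, mul_one] at H1 H2 H3
  generalize ε ^ (1 / μ) = l at *
  generalize (1 + ε) ^ P = K at *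
  generalize (2 : ℝ) ^ P = T at *
  have a4 : l * K + 2 * (G * l ^ (1 - μ)) * (K - 1) ≤ l * (T + 2 * G * (P * T)) := by
    have b1 : l * K ≤ l * T := by gcongr
    have b2 : l ^ (1 - μ) * (K - 1) ≤ l ^ (1 - μ) * (P * T * ε) := by gcongr
    have b3 : l ^ (1 - μ) * (P * T * ε) = P * T * l := by
      rw [← hlm]
      nth_rewrite 1 [hlm]
      ring
    have b4 := mul_le_mul_of_nonneg_left (b2.trans_eq b3) (by positivity : 0 ≤ 2 * G)
    linarith
  have a5 := mul_le_mul_of_nonneg_left a4 (show (0 : ℝ) ≤ N * 2 ^ k * (k * P) by positivity)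
  linarith

theorem leaf_eps {P : ℝ} (hP1 : 1 < P) (hP2 : P ≠ 2) : ∃ c : ℝ, 0 < c ∧ ∀ (m : ℕ) (ε : ℝ), 2 ≤ m →
    0 < ε → ε ≤ 1 → m * ε ^ (1 / (12 * P ^ 2)) ≤ c → ∀ (J : Type) [Fintype J] [DecidableEq J],
      Leaf P ((1 + ε) ^ P) 2 (m.choose 2) (m + 1) J := by
  obtain ⟨C₀, hC₀, hlf⟩ := leaf hP1 hP2
  have hT : (1 : ℝ) ≤ 2 ^ P := Real.one_le_rpow (by norm_num) (by linarith)
  have hR : (1 : ℝ) ≤ P * 2 ^ P := one_le_mul_of_one_le_of_one_le hP1.le hT
  refine ⟨1 / (6 * (C₀ + 1) * (P * 2 ^ P)), by positivity, fun m ε hm2 hε hε1 hmε => ?_⟩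
  obtain ⟨hK1, -, hK3⟩ := pow_one_add hP1.le hε.le hε1
  have hy : 0 < ε ^ (1 / (12 * P ^ 2)) := Real.rpow_pos_of_pos hε _
  have hm2' : (2 : ℝ) ≤ m := by exact_mod_cast hm2
  have hx4 : (m : ℝ) ^ 4 * (P * 2 ^ P * (ε ^ (1 / (12 * P ^ 2))) ^ 4) ≤ 1 / (6 * (C₀ + 1)) := by
    have b1 : 1 / (6 * (C₀ + 1) * (P * 2 ^ P)) ≤ 1 := by
      rw [div_le_one (by positivity)]
      nlinarith
    have b2 : ((m : ℝ) * ε ^ (1 / (12 * P ^ 2))) ^ 4 ≤ 1 / (6 * (C₀ + 1) * (P * 2 ^ P)) :=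
      (pow_le_of_le_one (by positivity) (hmε.trans b1) (by norm_num)).trans hmε
    calc _ = P * 2 ^ P * ((m : ℝ) * ε ^ (1 / (12 * P ^ 2))) ^ 4 := by ring
      _ ≤ P * 2 ^ P * (1 / (6 * (C₀ + 1) * (P * 2 ^ P))) := by gcongr
      _ = _ := by field_simp
  refine hlf m (P * 2 ^ P * (ε ^ (1 / (12 * P ^ 2))) ^ 4) ((1 + ε) ^ P) (by positivity) ?_ hK1 ?_ ?_
  · have b1 : 1 / (6 * (C₀ + 1)) ≤ 1 := by
      rw [div_le_one (by positivity)]
      linarith
    exact (le_mul_of_one_le_left (by positivity) (one_le_pow₀ (by linarith))).trans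
      (hx4.trans b1)
  · refine hK3.trans ?_
    rw [← Real.rpow_natCast _ 3, ← Real.rpow_mul (by positivity), ← Real.rpow_mul (by positivity),
      Real.mul_rpow (by positivity) (by positivity), ← Real.rpow_natCast _ 4,
      ← Real.rpow_mul hε.le, ← Real.rpow_mul hε.le,
      show 1 / (12 * P ^ 2) * (4 : ℕ) * (P * (P * (3 : ℕ))) = 1 by push_cast; field_simp; ring,
      Real.rpow_one]
    refine mul_le_mul_of_nonneg_right ?_ hε.le
    conv_lhs => rw [← Real.rpow_one (P * 2 ^ P)]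
    refine Real.rpow_le_rpow_of_exponent_le hR ?_
    push_cast
    nlinarith
  · have b1 : ((m.choose 2 : ℕ) : ℝ) ≤ (m : ℝ) ^ 2 := by exact_mod_cast Nat.choose_le_pow m 2
    have b2 : (m : ℝ) ^ 2 + 4 * m + 5 ≤ 5 * (m : ℝ) ^ 2 := by nlinarith
    have b3 : 0 ≤ P * 2 ^ P * (ε ^ (1 / (12 * P ^ 2))) ^ 4 := by positivity
    generalize P * 2 ^ P * (ε ^ (1 / (12 * P ^ 2))) ^ 4 = x at *
    calc _ ≤ 5 * (m : ℝ) ^ 2 * (C₀ * (m : ℝ) ^ 2 * x) := by gcongr
      _ = 5 * C₀ * ((m : ℝ) ^ 4 * x) := by ring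
      _ ≤ 5 * C₀ * (1 / (6 * (C₀ + 1))) := by gcongr
      _ < 1 := by
          rw [mul_one_div, div_lt_one (by positivity)]
          linarith

/-- The lower bound `c n min (n, ε ^ (-b))` for `ε ≤ c (log n) ^ (-min (p, 2))`. -/
theorem poly_lower (hp1 : 1 < p) (hp : p ≠ ∞) (hp2 : p ≠ 2) : ∃ C c : ℝ, 0 < C ∧ 0 < c ∧
    ∀ n : ℕ, 2 ≤ n → ∀ ε : ℝ, 0 < ε → ε ≤ 1 →
      c * n * min (n : ℝ) (ε ^ (-(1 / (12 * p.toReal ^ 2)))) *
        (1 - C * ε ^ (1 / min p.toReal 2) * Real.log n) ≤ dimU.{u} p n (1 + ε) := by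
  have hP1 := one_lt_toReal hp1 hp
  obtain ⟨C, hC, H⟩ := master_leaf.{u} hp1 hp hp2
  obtain ⟨c, hc, Hl⟩ := leaf_eps hP1 (toReal_ne_two hp hp2)
  have hT : (1 : ℝ) ≤ 2 ^ p.toReal := Real.one_le_rpow (by norm_num) (by linarith)
  refine ⟨2 * C, min (1 / 100) (c / 80) / 2 ^ p.toReal, by positivity, by positivity,
    fun n hn ε hε hε1 => ?_⟩
  have hl : 0 < ε ^ (1 / min p.toReal 2) := Real.rpow_pos_of_pos hε _
  have hy : 0 < ε ^ (1 / (12 * p.toReal ^ 2)) := Real.rpow_pos_of_pos hε _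
  have H1 := fun k m a b c' => H n k (m.choose 2) (m + 1) 2 ε (Nat.choose_pos a) b hε hε1
    (Hl m ε a hε hε1 c' _)
  have H2 := fun k b => H n k 1 0 _ ε one_pos b hε hε1
    (leaf_one (by linarith) (pow_one_add hP1.le hε.le hε1).2.1 _)
  rw [Real.rpow_neg hε.le]
  generalize ε ^ (1 / min p.toReal 2) = l at *
  generalize ε ^ (1 / (12 * p.toReal ^ 2)) = y at *
  generalize (2 : ℝ) ^ p.toReal = T at *
  generalize dimU.{u} p n (1 + ε) = d at *
  have hd : (0 : ℝ) ≤ d := Nat.cast_nonneg d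
  have hn2 : (2 : ℝ) ≤ n := by exact_mod_cast hn
  have c1 := min_le_left (1 / 100 : ℝ) (c / 80)
  have c2 := min_le_right (1 / 100 : ℝ) (c / 80)
  have c0 : 0 < min (1 / 100 : ℝ) (c / 80) := by positivity
  have m1 := min_le_left (n : ℝ) y⁻¹
  have m2 := min_le_right (n : ℝ) y⁻¹
  have m0 : 0 < min (n : ℝ) y⁻¹ := by positivity
  have k0 := mul_pos c0 m0
  have k1 : min (1 / 100 : ℝ) (c / 80) * min (n : ℝ) y⁻¹ ≤ n / 100 :=
    (mul_le_mul c1 m1 m0.le (by norm_num)).trans_eq (by ring)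
  have k2 : min (1 / 100 : ℝ) (c / 80) * min (n : ℝ) y⁻¹ ≤ c / y / 80 :=
    (mul_le_mul c2 m2 m0.le (by positivity)).trans_eq (by ring)
  rw [show min (1 / 100 : ℝ) (c / 80) / T * n * min (n : ℝ) y⁻¹ * (1 - 2 * C * l * Real.log n) =
    min (1 / 100 : ℝ) (c / 80) * min (n : ℝ) y⁻¹ * n * (1 - 2 * C * l * Real.log n) / T by ring,
    div_le_iff₀ (by linarith)]
  generalize min (1 / 100 : ℝ) (c / 80) * min (n : ℝ) y⁻¹ = κ at *
  rcases le_total (1 - 2 * C * l * Real.log n) 0 with h0 | h0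
  · exact (mul_nonpos_of_nonneg_of_nonpos (by positivity) h0).trans (by positivity)
  have fin : ∀ (k : ℕ) (W : ℝ), 2 ^ k ≤ n → κ * n ≤ W →
      κ * n * (1 - 2 * C * l * Real.log n) ≤ W * (1 - C * l * k) := by
    intro k W h1 h2
    have h6 : (2 : ℝ) ^ k ≤ n := by exact_mod_cast h1
    have h7 := Real.log_le_log (by positivity) h6
    rw [Real.log_pow] at h7
    have h8 := Real.log_two_gt_d9
    have h9 : (0 : ℝ) ≤ k := Nat.cast_nonneg k
    have h10 := mul_le_mul_of_nonneg_left (show (k : ℝ) ≤ 2 * Real.log n by nlinarith)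
      (show 0 ≤ C * l by positivity)
    exact mul_le_mul h2 (by linarith) h0 (le_trans (by positivity) h2)
  have hf := Nat.lt_floor_add_one (c / y)
  obtain ⟨m, hm⟩ : ∃ m, m = min (n - 3) ⌊c / y⌋₊ := ⟨_, rfl⟩
  have hκ : κ ≤ (m + 3) / 80 ∧ (2 ≤ m → κ ≤ m / 40) := by
    rcases le_total (n - 3) ⌊c / y⌋₊ with h | h
    · rw [min_eq_left h] at hm
      have : (n : ℝ) ≤ m + 3 := by exact_mod_cast (by omega : n ≤ m + 3)
      refine ⟨by linarith, fun h2 => ?_⟩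
      have : (2 : ℝ) ≤ m := by exact_mod_cast h2
      linarith
    · rw [min_eq_right h] at hm
      rw [← hm] at hf
      refine ⟨by linarith, fun h2 => ?_⟩
      have : (2 : ℝ) ≤ m := by exact_mod_cast h2
      linarith
  rcases lt_or_ge m 2 with h | h
  · obtain ⟨k, hk⟩ : ∃ k, k = Nat.log 2 (n / 2) := ⟨_, rfl⟩
    have a1 : 2 ^ k ≤ n / 2 := hk ▸ Nat.pow_log_le_self 2 (by omega)
    have a2 : n / 2 < 2 ^ (k + 1) := hk ▸ Nat.lt_pow_succ_log_self (by norm_num) _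
    refine (fin k _ (by omega) ?_).trans (H2 k (by omega))
    have b1 : (n : ℝ) ≤ 4 * 2 ^ k := by
      exact_mod_cast (by rw [pow_succ] at a2; omega : n ≤ 4 * 2 ^ k)
    have b2 : (m : ℝ) ≤ 2 := by exact_mod_cast h.le
    have b3 := mul_le_mul_of_nonneg_right (show κ ≤ 1 / 4 by linarith [hκ.1]) (by linarith : (0 : ℝ) ≤ n)
    push_cast
    linarith
  have hm3 : m + 3 ≤ n := by omega
  have hq : n / (m + 3) ≠ 0 := (Nat.div_pos hm3 (by omega)).ne'
  obtain ⟨k, hk⟩ : ∃ k, k = Nat.log 2 (n / (m + 3)) := ⟨_, rfl⟩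
  have a0 : 2 ^ k ≤ n / (m + 3) := hk ▸ Nat.pow_log_le_self 2 hq
  have a1 : (m + 3) * 2 ^ k ≤ n := (Nat.mul_le_mul_left _ a0).trans (Nat.mul_div_le _ _)
  have a2 : n < 2 ^ (k + 1) * (m + 3) := (Nat.div_lt_iff_lt_mul (by omega)).1
    (hk ▸ Nat.lt_pow_succ_log_self (by norm_num) _)
  have a6 : (m : ℝ) * y ≤ c := by
    rw [← le_div_iff₀ hy]
    refine le_trans ?_ (Nat.floor_le (by positivity))
    exact_mod_cast hm ▸ min_le_right _ _
  have a7 := H1 k m h a1 a6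
  have a8 := fin k ((m.choose 2 : ℕ) * 2 ^ k / 2) (a0.trans (Nat.div_le_self _ _)) (by
    have b1 : (n : ℝ) ≤ 2 ^ k * 2 * (m + 3) := by exact_mod_cast a2.le
    have b2 : (2 : ℝ) ≤ m := by exact_mod_cast h
    have b3 : (0 : ℝ) < 2 ^ k := by positivity
    rw [Nat.cast_choose_two]
    calc κ * n ≤ m / 40 * (2 ^ k * 2 * (m + 3)) :=
          mul_le_mul (hκ.2 h) b1 (by positivity) (by positivity)
      _ ≤ m / 40 * (2 ^ k * 2 * (5 * (m - 1))) := by
          gcongr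
          linarith
      _ = _ := by ring)
  have a9 := le_mul_of_one_le_right hd hT
  linarith

end Vale.Agent.N249X
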